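import Vale.Agent.P046.Full.Assembly
import Vale.Agent.P046.Full.One.Exit
import Vale.Agent.P046.Full.One.Moments
import Vale.Agent.P046.Full.One.Balls

/-!
P046: the exact constant, unconditionally.
-/

namespace Vale.Agent.P046.Full

/-- The first phase, unconditionally. -/
theorem phaseOne : PhaseOneStmt :=
  One.phaseOne_of One.exitStmt One.momentStmt One.countStmt

/-- `F_n / n^{3/2} → 1/(2√2)` in mean and in probability. -/
theorem main : MainStmt := main_from phaseOne

end Vale.Agent.P046.Full
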