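import Vale.Agent.P046.Full.Base

/-!
P046: the entropy inequality `CertFour`.  Both entropies are bounded below by rational functions,
two variables are merged into their geometric mean and a two variable polynomial is left.
-/

namespace Vale.Agent.P046.Full

/-- `log x` is at least its second order rational bound. -/
lemma log_ge_rat {x : ℝ} (hx : 0 < x) :
    (x - 1) * (5 * x + 1) / (2 * x * (x + 2)) ≤ Real.log x := by
  let g : ℝ → ℝ := fun y => Real.log y - (y - 1) * (5 * y + 1) / (2 * y * (y + 2))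
  have hd : ∀ y : ℝ, 0 < y → HasDerivAt g ((y - 1) ^ 3 / (y ^ 2 * (y + 2) ^ 2)) y := by
    intro y hy
    have h1 := (Real.hasDerivAt_log hy.ne').sub
      ((((hasDerivAt_id' y).sub_const 1).mul (((hasDerivAt_id' y).const_mul 5).add_const 1)).div
        (((hasDerivAt_id' y).const_mul 2).mul ((hasDerivAt_id' y).add_const 2))
        (mul_ne_zero (mul_ne_zero two_ne_zero hy.ne') (by linarith : y + 2 ≠ 0)))
    refine h1.congr_deriv ?_
    simp only [Pi.mul_apply]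
    field_simp
    ring
  have hg1 : g 1 = 0 := by simp [g]
  suffices 0 ≤ g x by simpa [g] using this
  rw [← hg1]
  rcases le_total 1 x with h | h
  · refine monotoneOn_of_deriv_nonneg (convex_Ici 1)
      (fun y hy => (hd y (lt_of_lt_of_le one_pos hy)).continuousAt.continuousWithinAt)
      (fun y hy => ?_) (fun y hy => ?_) Set.self_mem_Ici h h
    all_goals simp only [interior_Ici, Set.mem_Ioi] at hy
    · exact (hd y (by linarith)).differentiableAt.differentiableWithinAt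
    · rw [(hd y (by linarith)).deriv]
      have : 0 ≤ y - 1 := by linarith
      positivity
  · refine antitoneOn_of_deriv_nonpos (convex_Ioc 0 1)
      (fun y hy => (hd y hy.1).continuousAt.continuousWithinAt)
      (fun y hy => ?_) (fun y hy => ?_) ⟨hx, h⟩ ⟨one_pos, le_rfl⟩ h
    all_goals simp only [interior_Ioc, Set.mem_Ioo] at hy
    · exact (hd y hy.1).differentiableAt.differentiableWithinAt
    · rw [(hd y hy.1).deriv]
      have : (y - 1) ^ 3 ≤ 0 := (Odd.pow_nonpos_iff (by decide)).2 (by linarith)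
      exact div_nonpos_of_nonpos_of_nonneg this (by positivity)

lemma ent_ge {x : ℝ} (hx : 0 < x) :
    3 * (x - 1) ^ 2 / (2 * (x + 2)) ≤ x * Real.log x - x + 1 := by
  have h := mul_le_mul_of_nonneg_left (log_ge_rat hx) hx.le
  have e : x * ((x - 1) * (5 * x + 1) / (2 * x * (x + 2))) =
      3 * (x - 1) ^ 2 / (2 * (x + 2)) + (x - 1) := by
    field_simp
    ring
  linarith

/-- Five times the one variable part of the rational inequality. -/
noncomputable def fr (x : ℝ) : ℝ := 4 * x - 31 + 81 / (x + 2)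

/-- Five times the part of the product. -/
noncomputable def gr (x : ℝ) : ℝ := 25 / 2 * x - 35 + 135 / 2 / (x + 2)

lemma gr_ge {x : ℝ} (hx : 0 ≤ x) : -191 / 100 ≤ gr x := by
  unfold gr
  have h2 : 0 < x + 2 := by linarith
  have : -191 / 100 - 25 / 2 * x + 35 ≤ 135 / 2 / (x + 2) := by
    rw [le_div_iff₀ h2]
    nlinarith [sq_nonneg (x - 324 / 1000)]
  linarith

lemma fr_merge {q r : ℝ} (hq : 0 < q) (hr : 0 < r) (h : (86 / 100) ^ 2 ≤ q * r) :
    2 * fr (Real.sqrt (q * r)) ≤ fr q + fr r := by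
  obtain ⟨s, hs, he⟩ : ∃ s, s = Real.sqrt (q * r) ∧ s * s = q * r :=
    ⟨_, rfl, Real.mul_self_sqrt (by positivity)⟩
  rw [← hs]
  have hs0 : 86 / 100 ≤ s := by
    rw [hs]; exact Real.le_sqrt_of_sq_le (by linarith)
  have hσ : 2 * s ≤ q + r := by nlinarith [sq_nonneg (q - r)]
  have key : fr q + fr r - 2 * fr s = (q + r - 2 * s) *
      (4 * ((s + 2) * (s * s + 2 * (q + r) + 4)) + 81 * (s - 2)) /
        ((s + 2) * (s * s + 2 * (q + r) + 4)) := by
    have h1 : (q + 2) * (r + 2) = s * s + 2 * (q + r) + 4 := by rw [he]; ring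
    rw [← h1]
    unfold fr
    have : 0 < s + 2 := by linarith
    field_simp
    linear_combination 162 * he
  have h2 : 0 ≤ 4 * ((s + 2) * (s * s + 2 * (q + r) + 4)) + 81 * (s - 2) := by
    nlinarith [mul_le_mul_of_nonneg_left (show 4 * s ≤ 2 * (q + r) by linarith)
      (show 0 ≤ s + 2 by linarith), mul_nonneg (sub_nonneg.2 hs0) (sub_nonneg.2 hs0),
      mul_nonneg (mul_nonneg (sub_nonneg.2 hs0) (sub_nonneg.2 hs0)) (sub_nonneg.2 hs0)]
  have h3 : 0 ≤ fr q + fr r - 2 * fr s := by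
    rw [key]
    have : 0 ≤ q + r - 2 * s := by linarith
    positivity
  linarith

/-- The arithmetic geometric mean inequality for monomials. -/
lemma amgm (A B n u v w : ℝ) (hu : 0 ≤ u) (hv : 0 ≤ v) (_hw : 0 ≤ w) (huv : u * v = w ^ 2)
    (hA : 0 ≤ A) (hB : 0 ≤ B) (h : n ^ 2 ≤ 4 * A * B) : n * w ≤ A * u + B * v := by
  refine (abs_le_of_sq_le_sq' ?_ (by positivity)).2
  nlinarith [sq_nonneg (A * u - B * v), mul_le_mul_of_nonneg_right h (sq_nonneg w)]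

lemma quad_uu {x y : ℝ} (hx : 0 ≤ x) (hy : 0 ≤ y) :
    0 ≤ 1134 * (y ^ 2)
      + 1206 * (y ^ 3)
      + 573 * (y ^ 4)
      + 75 * (y ^ 5)
      + 1080 * (x ^ 1 * y ^ 1)
      + 2916 * (x ^ 1 * y ^ 2)
      + 2928 * (x ^ 1 * y ^ 3)
      + 1289 * (x ^ 1 * y ^ 4)
      + 175 * (x ^ 1 * y ^ 5)
      + 297 * (x ^ 2)
      + 1287 * (x ^ 2 * y ^ 1)
      + 2436 * (x ^ 2 * y ^ 2)
      + 2180 * (x ^ 2 * y ^ 3)
      + 891 * (x ^ 2 * y ^ 4)
      + 125 * (x ^ 2 * y ^ 5)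
      + 99 * (x ^ 3)
      + 381 * (x ^ 3 * y ^ 1)
      + 590 * (x ^ 3 * y ^ 2)
      + 458 * (x ^ 3 * y ^ 3)
      + 175 * (x ^ 3 * y ^ 4)
      + 25 * (x ^ 3 * y ^ 5) := by
  have r0 : 0 ≤ (1134 : ℝ) * (y ^ 2) := by positivity
  have r1 : 0 ≤ (1206 : ℝ) * (y ^ 3) := by positivity
  have r2 : 0 ≤ (573 : ℝ) * (y ^ 4) := by positivity
  have r3 : 0 ≤ (75 : ℝ) * (y ^ 5) := by positivity
  have r4 : 0 ≤ (1080 : ℝ) * (x ^ 1 * y ^ 1) := by positivity
  have r5 : 0 ≤ (2916 : ℝ) * (x ^ 1 * y ^ 2) := by positivity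
  have r6 : 0 ≤ (2928 : ℝ) * (x ^ 1 * y ^ 3) := by positivity
  have r7 : 0 ≤ (1289 : ℝ) * (x ^ 1 * y ^ 4) := by positivity
  have r8 : 0 ≤ (175 : ℝ) * (x ^ 1 * y ^ 5) := by positivity
  have r9 : 0 ≤ (297 : ℝ) * (x ^ 2) := by positivity
  have r10 : 0 ≤ (1287 : ℝ) * (x ^ 2 * y ^ 1) := by positivity
  have r11 : 0 ≤ (2436 : ℝ) * (x ^ 2 * y ^ 2) := by positivity
  have r12 : 0 ≤ (2180 : ℝ) * (x ^ 2 * y ^ 3) := by positivity
  have r13 : 0 ≤ (891 : ℝ) * (x ^ 2 * y ^ 4) := by positivity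
  have r14 : 0 ≤ (125 : ℝ) * (x ^ 2 * y ^ 5) := by positivity
  have r15 : 0 ≤ (99 : ℝ) * (x ^ 3) := by positivity
  have r16 : 0 ≤ (381 : ℝ) * (x ^ 3 * y ^ 1) := by positivity
  have r17 : 0 ≤ (590 : ℝ) * (x ^ 3 * y ^ 2) := by positivity
  have r18 : 0 ≤ (458 : ℝ) * (x ^ 3 * y ^ 3) := by positivity
  have r19 : 0 ≤ (175 : ℝ) * (x ^ 3 * y ^ 4) := by positivity
  have r20 : 0 ≤ (25 : ℝ) * (x ^ 3 * y ^ 5) := by positivity
  linarith

lemma quad_ud {x y : ℝ} (hx : 0 ≤ x) (hy : 0 ≤ y) :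
    0 ≤ 1134 * (y ^ 2)
      + 2196 * (y ^ 3)
      + 1563 * (y ^ 4)
      + 426 * (y ^ 5)
      + (-1080) * (x ^ 1 * y ^ 1)
      + (-1404) * (x ^ 1 * y ^ 2)
      + (-660) * (x ^ 1 * y ^ 3)
      + (-139) * (x ^ 1 * y ^ 4)
      + 22 * (x ^ 1 * y ^ 5)
      + 297 * (x ^ 2)
      + 198 * (x ^ 2 * y ^ 1)
      + 258 * (x ^ 2 * y ^ 2)
      + 376 * (x ^ 2 * y ^ 3)
      + 176 * (x ^ 2 * y ^ 4)
      + 32 * (x ^ 2 * y ^ 5)
      + 99 * (x ^ 3)
      + 114 * (x ^ 3 * y ^ 1)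
      + 56 * (x ^ 3 * y ^ 2)
      + 16 * (x ^ 3 * y ^ 3) := by
  have a0 := amgm (1980962) (195786) (1245543) (y ^ 3) (x ^ 2 * y ^ 1) (x ^ 1 * y ^ 2)
    (by positivity) (by positivity) (by positivity) (by ring) (by norm_num) (by norm_num) (by norm_num)
  have a1 := amgm (1103854) (285081) (1080000) (y ^ 2) (x ^ 2) (x ^ 1 * y ^ 1)
    (by positivity) (by positivity) (by positivity) (by ring) (by norm_num) (by norm_num) (by norm_num)
  have a2 := amgm (211244) (364289) (554811) (y ^ 3) (x ^ 2 * y ^ 3) (x ^ 1 * y ^ 3)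
    (by positivity) (by positivity) (by positivity) (by ring) (by norm_num) (by norm_num) (by norm_num)
  have a3 := amgm (266168) (60530) (105189) (y ^ 4) (x ^ 2 * y ^ 2) (x ^ 1 * y ^ 3)
    (by positivity) (by positivity) (by positivity) (by ring) (by norm_num) (by norm_num) (by norm_num)
  have a4 := amgm (1266112) (11918) (158457) (y ^ 4) (x ^ 2) (x ^ 1 * y ^ 2)
    (by positivity) (by positivity) (by positivity) (by ring) (by norm_num) (by norm_num) (by norm_num)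
  have a5 := amgm (30719) (94614) (107822) (y ^ 4) (x ^ 2 * y ^ 4) (x ^ 1 * y ^ 4)
    (by positivity) (by positivity) (by positivity) (by ring) (by norm_num) (by norm_num) (by norm_num)
  have a6 := amgm (146832) (11710) (31178) (y ^ 5) (x ^ 2 * y ^ 3) (x ^ 1 * y ^ 4)
    (by positivity) (by positivity) (by positivity) (by ring) (by norm_num) (by norm_num) (by norm_num)
  have r0 : 0 ≤ (30146 : ℝ) * (y ^ 2) := by positivity
  have r1 : 0 ≤ (3794 : ℝ) * (y ^ 3) := by positivity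
  have r2 : 0 ≤ (1 : ℝ) * (y ^ 4) := by positivity
  have r3 : 0 ≤ (279168 : ℝ) * (y ^ 5) := by positivity
  have r8 : 0 ≤ (22000 : ℝ) * (x ^ 1 * y ^ 5) := by positivity
  have r9 : 0 ≤ (1 : ℝ) * (x ^ 2) := by positivity
  have r10 : 0 ≤ (2214 : ℝ) * (x ^ 2 * y ^ 1) := by positivity
  have r11 : 0 ≤ (197470 : ℝ) * (x ^ 2 * y ^ 2) := by positivity
  have r12 : 0 ≤ (1 : ℝ) * (x ^ 2 * y ^ 3) := by positivity
  have r13 : 0 ≤ (81386 : ℝ) * (x ^ 2 * y ^ 4) := by positivity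
  have r14 : 0 ≤ (32000 : ℝ) * (x ^ 2 * y ^ 5) := by positivity
  have r15 : 0 ≤ (99000 : ℝ) * (x ^ 3) := by positivity
  have r16 : 0 ≤ (114000 : ℝ) * (x ^ 3 * y ^ 1) := by positivity
  have r17 : 0 ≤ (56000 : ℝ) * (x ^ 3 * y ^ 2) := by positivity
  have r18 : 0 ≤ (16000 : ℝ) * (x ^ 3 * y ^ 3) := by positivity
  linarith

lemma quad_dd {x y : ℝ} (hx : 0 ≤ x) (hy : 0 ≤ y) :
    0 ≤ 1134 * (y ^ 2)
      + 2196 * (y ^ 3)
      + 1563 * (y ^ 4)
      + 426 * (y ^ 5)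
      + 1080 * (x ^ 1 * y ^ 1)
      + 4806 * (x ^ 1 * y ^ 2)
      + 7248 * (x ^ 1 * y ^ 3)
      + 4828 * (x ^ 1 * y ^ 4)
      + 1256 * (x ^ 1 * y ^ 5)
      + 297 * (x ^ 2)
      + 2358 * (x ^ 2 * y ^ 1)
      + 6468 * (x ^ 2 * y ^ 2)
      + 8284 * (x ^ 2 * y ^ 3)
      + 5143 * (x ^ 2 * y ^ 4)
      + 1266 * (x ^ 2 * y ^ 5)
      + 198 * (x ^ 3)
      + 1164 * (x ^ 3 * y ^ 1)
      + 2740 * (x ^ 3 * y ^ 2)
      + 3216 * (x ^ 3 * y ^ 3)
      + 1878 * (x ^ 3 * y ^ 4)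
      + 436 * (x ^ 3 * y ^ 5) := by
  have r0 : 0 ≤ (1134 : ℝ) * (y ^ 2) := by positivity
  have r1 : 0 ≤ (2196 : ℝ) * (y ^ 3) := by positivity
  have r2 : 0 ≤ (1563 : ℝ) * (y ^ 4) := by positivity
  have r3 : 0 ≤ (426 : ℝ) * (y ^ 5) := by positivity
  have r4 : 0 ≤ (1080 : ℝ) * (x ^ 1 * y ^ 1) := by positivity
  have r5 : 0 ≤ (4806 : ℝ) * (x ^ 1 * y ^ 2) := by positivity
  have r6 : 0 ≤ (7248 : ℝ) * (x ^ 1 * y ^ 3) := by positivity
  have r7 : 0 ≤ (4828 : ℝ) * (x ^ 1 * y ^ 4) := by positivity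
  have r8 : 0 ≤ (1256 : ℝ) * (x ^ 1 * y ^ 5) := by positivity
  have r9 : 0 ≤ (297 : ℝ) * (x ^ 2) := by positivity
  have r10 : 0 ≤ (2358 : ℝ) * (x ^ 2 * y ^ 1) := by positivity
  have r11 : 0 ≤ (6468 : ℝ) * (x ^ 2 * y ^ 2) := by positivity
  have r12 : 0 ≤ (8284 : ℝ) * (x ^ 2 * y ^ 3) := by positivity
  have r13 : 0 ≤ (5143 : ℝ) * (x ^ 2 * y ^ 4) := by positivity
  have r14 : 0 ≤ (1266 : ℝ) * (x ^ 2 * y ^ 5) := by positivity
  have r15 : 0 ≤ (198 : ℝ) * (x ^ 3) := by positivity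
  have r16 : 0 ≤ (1164 : ℝ) * (x ^ 3 * y ^ 1) := by positivity
  have r17 : 0 ≤ (2740 : ℝ) * (x ^ 3 * y ^ 2) := by positivity
  have r18 : 0 ≤ (3216 : ℝ) * (x ^ 3 * y ^ 3) := by positivity
  have r19 : 0 ≤ (1878 : ℝ) * (x ^ 3 * y ^ 4) := by positivity
  have r20 : 0 ≤ (436 : ℝ) * (x ^ 3 * y ^ 5) := by positivity
  linarith

lemma quad_du1 {x y : ℝ} (hx : 0 ≤ x) (hy : 0 ≤ y) :
    0 ≤ 162 * (y ^ 2)
      + 270 * (y ^ 3)
      + 585 * (y ^ 4)
      + 1215 * (y ^ 5)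
      + 228 * (y ^ 6)
      + 108 * (x ^ 1 * y ^ 1)
      + (-630) * (x ^ 1 * y ^ 2)
      + (-1374) * (x ^ 1 * y ^ 3)
      + 966 * (x ^ 1 * y ^ 4)
      + 178 * (x ^ 1 * y ^ 5)
      + 297 * (x ^ 2)
      + 315 * (x ^ 2 * y ^ 1)
      + (-1038) * (x ^ 2 * y ^ 2)
      + 326 * (x ^ 2 * y ^ 3)
      + 32 * (x ^ 2 * y ^ 4)
      + 198 * (x ^ 3)
      + (-174) * (x ^ 3 * y ^ 1)
      + 64 * (x ^ 3 * y ^ 2) := by
  have a0 := amgm (1215000) (102472) (705701) (y ^ 5) (x ^ 2 * y ^ 1) (x ^ 1 * y ^ 3)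
    (by positivity) (by positivity) (by positivity) (by ring) (by norm_num) (by norm_num) (by norm_num)
  have a1 := amgm (585000) (160789) (613389) (y ^ 4) (x ^ 2) (x ^ 1 * y ^ 2)
    (by positivity) (by positivity) (by positivity) (by ring) (by norm_num) (by norm_num) (by norm_num)
  have a2 := amgm (966000) (78410) (550432) (x ^ 1 * y ^ 4) (x ^ 3) (x ^ 2 * y ^ 2)
    (by positivity) (by positivity) (by positivity) (by ring) (by norm_num) (by norm_num) (by norm_num)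
  have a3 := amgm (205032) (294726) (487568) (x ^ 2 * y ^ 1) (x ^ 2 * y ^ 3) (x ^ 2 * y ^ 2)
    (by positivity) (by positivity) (by positivity) (by ring) (by norm_num) (by norm_num) (by norm_num)
  have a4 := amgm (108000) (178000) (277301) (x ^ 1 * y ^ 1) (x ^ 1 * y ^ 5) (x ^ 1 * y ^ 3)
    (by positivity) (by positivity) (by positivity) (by ring) (by norm_num) (by norm_num) (by norm_num)
  have a5 := amgm (228000) (79067) (268531) (y ^ 6) (x ^ 2) (x ^ 1 * y ^ 3)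
    (by positivity) (by positivity) (by positivity) (by ring) (by norm_num) (by norm_num) (by norm_num)
  have a6 := amgm (119589) (64000) (174000) (x ^ 3) (x ^ 3 * y ^ 2) (x ^ 3 * y ^ 1)
    (by positivity) (by positivity) (by positivity) (by ring) (by norm_num) (by norm_num) (by norm_num)
  have a7 := amgm (193607) (31273) (122467) (y ^ 3) (x ^ 2 * y ^ 3) (x ^ 1 * y ^ 3)
    (by positivity) (by positivity) (by positivity) (by ring) (by norm_num) (by norm_num) (by norm_num)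
  have a8 := amgm (76392) (7495) (16611) (y ^ 3) (x ^ 2 * y ^ 1) (x ^ 1 * y ^ 2)
    (by positivity) (by positivity) (by positivity) (by ring) (by norm_num) (by norm_num) (by norm_num)
  have r0 : 0 ≤ (162000 : ℝ) * (y ^ 2) := by positivity
  have r1 : 0 ≤ (1 : ℝ) * (y ^ 3) := by positivity
  have r10 : 0 ≤ (57144 : ℝ) * (x ^ 2) := by positivity
  have r11 : 0 ≤ (1 : ℝ) * (x ^ 2 * y ^ 1) := by positivity
  have r13 : 0 ≤ (1 : ℝ) * (x ^ 2 * y ^ 3) := by positivity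
  have r14 : 0 ≤ (32000 : ℝ) * (x ^ 2 * y ^ 4) := by positivity
  have r15 : 0 ≤ (1 : ℝ) * (x ^ 3) := by positivity
  linarith

lemma quad_du2 {x y : ℝ} (hx : 0 ≤ x) (hy : 0 ≤ y) :
    0 ≤ 1134 * (y ^ 2)
      + 1206 * (y ^ 3)
      + 573 * (y ^ 4)
      + 75 * (y ^ 5)
      + 108 * (x ^ 1 * y ^ 1)
      + 4590 * (x ^ 1 * y ^ 2)
      + 3672 * (x ^ 1 * y ^ 3)
      + 1235 * (x ^ 1 * y ^ 4)
      + 100 * (x ^ 1 * y ^ 5)
      + 162 * (x ^ 2)
      + 2070 * (x ^ 2 * y ^ 1)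
      + 7602 * (x ^ 2 * y ^ 2)
      + 3958 * (x ^ 2 * y ^ 3)
      + 628 * (x ^ 2 * y ^ 4)
      + 270 * (x ^ 3)
      + 5088 * (x ^ 3 * y ^ 1)
      + 5726 * (x ^ 3 * y ^ 2)
      + 1512 * (x ^ 3 * y ^ 3)
      + 585 * (x ^ 4)
      + 4143 * (x ^ 4 * y ^ 1)
      + 1768 * (x ^ 4 * y ^ 2)
      + 1215 * (x ^ 5)
      + 1012 * (x ^ 5 * y ^ 1)
      + 228 * (x ^ 6) := by
  have r0 : 0 ≤ (1134 : ℝ) * (y ^ 2) := by positivity
  have r1 : 0 ≤ (1206 : ℝ) * (y ^ 3) := by positivity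
  have r2 : 0 ≤ (573 : ℝ) * (y ^ 4) := by positivity
  have r3 : 0 ≤ (75 : ℝ) * (y ^ 5) := by positivity
  have r4 : 0 ≤ (108 : ℝ) * (x ^ 1 * y ^ 1) := by positivity
  have r5 : 0 ≤ (4590 : ℝ) * (x ^ 1 * y ^ 2) := by positivity
  have r6 : 0 ≤ (3672 : ℝ) * (x ^ 1 * y ^ 3) := by positivity
  have r7 : 0 ≤ (1235 : ℝ) * (x ^ 1 * y ^ 4) := by positivity
  have r8 : 0 ≤ (100 : ℝ) * (x ^ 1 * y ^ 5) := by positivity
  have r9 : 0 ≤ (162 : ℝ) * (x ^ 2) := by positivity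
  have r10 : 0 ≤ (2070 : ℝ) * (x ^ 2 * y ^ 1) := by positivity
  have r11 : 0 ≤ (7602 : ℝ) * (x ^ 2 * y ^ 2) := by positivity
  have r12 : 0 ≤ (3958 : ℝ) * (x ^ 2 * y ^ 3) := by positivity
  have r13 : 0 ≤ (628 : ℝ) * (x ^ 2 * y ^ 4) := by positivity
  have r14 : 0 ≤ (270 : ℝ) * (x ^ 3) := by positivity
  have r15 : 0 ≤ (5088 : ℝ) * (x ^ 3 * y ^ 1) := by positivity
  have r16 : 0 ≤ (5726 : ℝ) * (x ^ 3 * y ^ 2) := by positivity
  have r17 : 0 ≤ (1512 : ℝ) * (x ^ 3 * y ^ 3) := by positivity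
  have r18 : 0 ≤ (585 : ℝ) * (x ^ 4) := by positivity
  have r19 : 0 ≤ (4143 : ℝ) * (x ^ 4 * y ^ 1) := by positivity
  have r20 : 0 ≤ (1768 : ℝ) * (x ^ 4 * y ^ 2) := by positivity
  have r21 : 0 ≤ (1215 : ℝ) * (x ^ 5) := by positivity
  have r22 : 0 ≤ (1012 : ℝ) * (x ^ 5 * y ^ 1) := by positivity
  have r23 : 0 ≤ (228 : ℝ) * (x ^ 6) := by positivity
  linarith

lemma rat_two {p s : ℝ} (hp : 0 < p) (hs : 0 < s) :
    0 ≤ fr p + 2 * fr s + gr (p * (s * s)) := by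
  have h1 : 0 < p + 2 := by linarith
  have h2 : 0 < s + 2 := by linarith
  have h3 : 0 < p * (s * s) + 2 := by positivity
  have key : 0 ≤ (8 * p + 16 * s + 25 * p * s ^ 2 - 256) * (p + 2) * (s + 2) * (p * (s * s) + 2) +
      162 * (s + 2) * (p * (s * s) + 2) + 324 * (p + 2) * (p * (s * s) + 2) +
      135 * (p + 2) * (s + 2) := by
    rcases le_total 1 p with hp1 | hp1
    · obtain ⟨x, hx, rfl⟩ : ∃ x, 0 ≤ x ∧ p = 1 + x := ⟨p - 1, by linarith, by ring⟩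
      rcases le_total 1 s with hs1 | hs1
      · obtain ⟨y, hy, rfl⟩ : ∃ y, 0 ≤ y ∧ s = 1 + y := ⟨s - 1, by linarith, by ring⟩
        exact le_of_le_of_eq (quad_uu hx hy) (by ring)
      · obtain ⟨y, hy, rfl⟩ : ∃ y, 0 ≤ y ∧ s = 1 / (1 + y) :=
          ⟨1 / s - 1, by rw [sub_nonneg, le_div_iff₀ hs]; linarith, by field_simp; ring⟩
        refine nonneg_of_mul_nonneg_left ?_ (by positivity : (0 : ℝ) < (1 + y) ^ 5)
        exact le_of_le_of_eq (quad_ud hx hy) (by field_simp; ring)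
    · obtain ⟨x, hx, rfl⟩ : ∃ x, 0 ≤ x ∧ p = 1 / (1 + x) :=
        ⟨1 / p - 1, by rw [sub_nonneg, le_div_iff₀ hp]; linarith, by field_simp; ring⟩
      rcases le_total 1 s with hs1 | hs1
      · obtain ⟨y, hy, rfl⟩ : ∃ y, 0 ≤ y ∧ s = 1 + y := ⟨s - 1, by linarith, by ring⟩
        refine nonneg_of_mul_nonneg_left ?_ (by positivity : (0 : ℝ) < (1 + x) ^ 3)
        rcases le_total (2 * y) x with hxy | hxy
        · obtain ⟨z, hz, rfl⟩ : ∃ z, 0 ≤ z ∧ x = 2 * y + z := ⟨x - 2 * y, by linarith, by ring⟩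
          exact le_of_le_of_eq (quad_du1 hz hy) (by field_simp; ring)
        · obtain ⟨z, hz, rfl⟩ : ∃ z, 0 ≤ z ∧ y = x / 2 + z := ⟨y - x / 2, by linarith, by ring⟩
          obtain ⟨w, hw, rfl⟩ : ∃ w, 0 ≤ w ∧ x = 2 * w := ⟨x / 2, by linarith, by ring⟩
          exact le_of_le_of_eq (quad_du2 hw hz) (by field_simp; ring)
      · obtain ⟨y, hy, rfl⟩ : ∃ y, 0 ≤ y ∧ s = 1 / (1 + y) :=
          ⟨1 / s - 1, by rw [sub_nonneg, le_div_iff₀ hs]; linarith, by field_simp; ring⟩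
        refine nonneg_of_mul_nonneg_left ?_
          (by positivity : (0 : ℝ) < (1 + x) ^ 3 * (1 + y) ^ 5)
        exact le_of_le_of_eq (quad_dd hx hy) (by field_simp; ring)
  have e : fr p + 2 * fr s + gr (p * (s * s)) =
      ((8 * p + 16 * s + 25 * p * s ^ 2 - 256) * (p + 2) * (s + 2) * (p * (s * s) + 2) +
      162 * (s + 2) * (p * (s * s) + 2) + 324 * (p + 2) * (p * (s * s) + 2) +
      135 * (p + 2) * (s + 2)) / (2 * ((p + 2) * (s + 2) * (p * (s * s) + 2))) := by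
    unfold fr gr
    field_simp
    ring
  rw [e]
  positivity

lemma rat_sorted {p q r : ℝ} (hp : 0 < p) (hpq : p ≤ q) (hqr : q ≤ r) :
    0 ≤ fr p + fr q + fr r + gr (p * q * r) := by
  have hq : 0 < q := lt_of_lt_of_le hp hpq
  have hr : 0 < r := lt_of_lt_of_le hq hqr
  rcases le_or_gt ((86 / 100) ^ 2) (q * r) with h | h
  · have h1 := fr_merge hq hr h
    have h2 := rat_two hp (Real.sqrt_pos.2 (mul_pos hq hr))
    rw [Real.mul_self_sqrt (mul_pos hq hr).le, ← mul_assoc] at h2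
    linarith
  · have h1 := gr_ge (mul_pos (mul_pos hp hq) hr).le
    have hq1 : q ≤ 86 / 100 := by nlinarith
    have h2 : fr q ≤ fr p := by
      have e : fr p - fr q = (q - p) * (81 - 4 * ((p + 2) * (q + 2))) / ((p + 2) * (q + 2)) := by
        unfold fr; field_simp; ring
      have : 0 ≤ 81 - 4 * ((p + 2) * (q + 2)) := by nlinarith
      have : 0 ≤ q - p := by linarith
      have : 0 ≤ fr p - fr q := by rw [e]; positivity
      linarith
    have h3 : 191 / 100 ≤ 2 * fr q + fr r := by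
      have e : 2 * fr q + fr r - 191 / 100 =
          ((8 * q + 4 * r - 9491 / 100) * ((q + 2) * (r + 2)) + 162 * (r + 2) + 81 * (q + 2)) /
            ((q + 2) * (r + 2)) := by
        unfold fr; field_simp; ring
      have : 0 ≤ (8 * q + 4 * r - 9491 / 100) * ((q + 2) * (r + 2)) + 162 * (r + 2) +
          81 * (q + 2) := by
        nlinarith [mul_nonneg hq.le (sq_nonneg (r - 2)), sq_nonneg (r - 1), sq_nonneg (q - r),
          mul_pos hq hr]
      have : 0 ≤ 2 * fr q + fr r - 191 / 100 := by rw [e]; positivity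
      linarith
    linarith

lemma rat_all {p q r : ℝ} (hp : 0 < p) (hq : 0 < q) (hr : 0 < r) :
    0 ≤ fr p + fr q + fr r + gr (p * q * r) := by
  rcases le_total p q with hpq | hpq <;> rcases le_total q r with hqr | hqr <;>
    rcases le_total p r with hpr | hpr
  all_goals first
    | exact rat_sorted hp hpq hqr
    | (have := rat_sorted hp hpr hqr; rw [mul_right_comm] at this; linarith)
    | (have := rat_sorted hq hpq hpr; rw [mul_comm q p] at this; linarith)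
    | (have := rat_sorted hq hqr hpr; rw [mul_comm (q * r), ← mul_assoc] at this; linarith)
    | (have := rat_sorted hr hpr hpq; rw [mul_assoc r, mul_comm r] at this; linarith)
    | (have := rat_sorted hr hqr hpq; rw [mul_assoc r, mul_comm r, mul_comm q p] at this; linarith)

theorem certFour : CertFourStmt := by
  intro p q r hp hq hr
  have hP := ent_ge (mul_pos (mul_pos hp hq) hr)
  have h1 := ent_ge hp
  have h2 := ent_ge hq
  have h3 := ent_ge hr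
  have h := rat_all hp hq hr
  have e : fr p + fr q + fr r + gr (p * q * r) =
      9 * ((p - 1) ^ 2 / (p + 2) + (q - 1) ^ 2 / (q + 2) + (r - 1) ^ 2 / (r + 2)) -
        5 * ((p - 1) + (q - 1) + (r - 1)) + 5 * (p * q * r - 1) +
          15 / 2 * ((p * q * r - 1) ^ 2 / (p * q * r + 2)) := by
    have : 0 < p * q * r := by positivity
    unfold fr gr
    field_simp
    ring
  have w : ∀ x : ℝ, 3 * (x - 1) ^ 2 / (2 * (x + 2)) = 3 / 2 * ((x - 1) ^ 2 / (x + 2)) := by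
    intro x; rw [div_mul_div_comm]
  rw [w] at hP h1 h2 h3
  linarith

end Vale.Agent.P046.Full
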