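import Vale.Agent.P046.Full.Base
import Vale.Agent.P046.CertII

/-!
P046: the second phase certificate in the form used by the exact constant proof.
-/

namespace Vale.Agent.P046.Full

open Vale.Agent.P046

lemma psiU_eq : psiU = psi4 := rfl

theorem certTwo : CertTwoStmt := by
  intro a b c ha hb hc
  simp only [psiU_eq, (hasDerivAt_psi4 _).deriv]
  have := certII a b c ha hb hc
  linarith

end Vale.Agent.P046.Full
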