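import Vale.Agent.P046.Full.Local.Bridge
import Vale.Agent.P046.Full.Local.Rates

/-!
P046, the exact constant: the late process follows the cavity prediction.
-/

namespace Vale.Agent.P046.Full

open Finset Filter
open Vale.Agent.P046

lemma radius_eq (n : ℕ) : radius n = ⌈256 * lg n ^ (24 / 25 : ℝ)⌉₊ := rfl

lemma aOf_lg (n : ℕ) : aOf (lg n) = r1 n - rL n := by
  unfold aOf r1 rL timeOf D1v Lv; ring

/-- The expected exponential moment of the degrees, from the tail. -/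
lemma sum_hmom_le {n : ℕ} {C ε : ℝ} {μ : Gr n → ℝ} (hμ : MidData C ε n μ) :
    ∑ G, μ G * hmom (triH G) G (r1 n - rL n) ≤
      ((⌊2 * Lv n⌋₊ : ℝ) + 1) * (|C| * m0 n (Lv n)) := by
  obtain ⟨⟨h0, -, -⟩, hdg, htail, -⟩ := hμ
  set a := r1 n - rL n
  set D := ⌊2 * Lv n⌋₊
  have h1 : ∀ G, μ G * hmom (triH G) G a ≤ ∑ y ∈ Finset.range (D + 1),
      Real.exp (a * (y : ℝ)) * (μ G * ((G.filter (fun g => y ≤ deg G g)).card : ℝ)) := by
    intro G
    rcases (h0 G).eq_or_lt' with h | h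
    · simp [h]
    have hr : ∀ g ∈ G, Real.exp (a * (hdeg (triH G) g : ℝ)) ≤
        ∑ y ∈ Finset.range (D + 1), if y ≤ deg G g then Real.exp (a * (y : ℝ)) else 0 := by
      intro g hg
      rw [hdeg_triH]
      have hd : deg G g ≤ D := Nat.le_floor (hdg G h.ne' g hg)
      refine le_trans (le_of_eq ?_) (Finset.single_le_sum (fun y _ => ?_)
        (Finset.mem_range.2 (Nat.lt_succ_of_le hd)))
      · rw [if_pos le_rfl]
      · split <;> positivity
    calc μ G * hmom (triH G) G a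
        ≤ μ G * ∑ g ∈ G, ∑ y ∈ Finset.range (D + 1),
            if y ≤ deg G g then Real.exp (a * (y : ℝ)) else 0 :=
          mul_le_mul_of_nonneg_left (Finset.sum_le_sum hr) h.le
      _ = _ := by
          rw [Finset.sum_comm, Finset.mul_sum]
          refine Finset.sum_congr rfl fun y _ => ?_
          rw [← Finset.sum_filter, Finset.sum_const, nsmul_eq_mul]
          ring
  refine (Finset.sum_le_sum fun G _ => h1 G).trans ?_
  rw [Finset.sum_comm]
  refine (Finset.sum_le_card_nsmul _ _ (|C| * m0 n (Lv n)) fun y _ => ?_).trans ?_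
  · rw [← Finset.mul_sum]
    calc _ ≤ Real.exp (a * (y : ℝ)) * (C * m0 n (Lv n) * Real.exp (-(y : ℝ) * a)) :=
          mul_le_mul_of_nonneg_left (htail y) (Real.exp_pos _).le
      _ = C * m0 n (Lv n) := by
          have e : Real.exp (a * (y : ℝ)) * Real.exp (-(y : ℝ) * a) = 1 := by
            rw [← Real.exp_add]; ring_nf; simp
          linear_combination (C * m0 n (Lv n)) * e
      _ ≤ |C| * m0 n (Lv n) :=
          mul_le_mul_of_nonneg_right (le_abs_self C) (by unfold m0; positivity)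
  · rw [Finset.card_range, nsmul_eq_mul]
    push_cast
    exact le_rfl

/-- The terms apart from growth. -/
lemma rest_le (n : ℕ) (hx1 : 1 ≤ lg n) (hn0 : (0 : ℝ) < n) {B δ : ℝ} (hB0 : 0 ≤ B)
    (hBle : B ≤ Real.exp (lg n / 4)) (htl : (lg n + 3) * Real.exp (-(lg n / 8)) ≤ δ) :
    B / (n : ℝ) ^ (3 / 4 : ℝ) * (2 * m0 n (D1v n)) + ((n : ℝ) ^ (3 / 4 : ℝ) + 1) +
      (n : ℝ) ^ (11 / 8 : ℝ) ≤ δ * ((n : ℝ) * Real.sqrt n) := by
  have hsD : Real.sqrt (D1v n) ≤ lg n := by
    rw [Real.sqrt_le_iff]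
    refine ⟨by linarith, ?_⟩
    calc D1v n ≤ lg n := Real.rpow_le_self_of_one_le hx1 (by norm_num)
      _ ≤ lg n ^ 2 := le_self_pow₀ hx1 (by norm_num)
  have hexp : ∀ c : ℝ, (n : ℝ) ^ c = Real.exp (c * lg n) := fun c => by
    rw [lg, Real.rpow_def_of_pos hn0, mul_comm]
  have hsc : (n : ℝ) * Real.sqrt n = Real.exp (3 / 2 * lg n) := by
    rw [← hexp, show (3 / 2 : ℝ) = 1 + 1 / 2 by norm_num, Real.rpow_add hn0, Real.rpow_one,
      Real.sqrt_eq_rpow]
  unfold m0
  rw [hexp, hexp, hsc]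
  generalize Real.sqrt (D1v n) = d at *
  generalize lg n = x at *
  have e1 : B / Real.exp (3 / 4 * x) * (2 * (Real.exp (3 / 2 * x) * d / 2)) ≤
      x * (Real.exp (-(x / 8)) * Real.exp (3 / 2 * x)) := by
    have e2 : B / Real.exp (3 / 4 * x) ≤ Real.exp (-(x / 8)) := by
      rw [div_le_iff₀ (Real.exp_pos _), ← Real.exp_add]
      exact hBle.trans (Real.exp_le_exp.2 (by linarith))
    calc B / Real.exp (3 / 4 * x) * (2 * (Real.exp (3 / 2 * x) * d / 2))
        = B / Real.exp (3 / 4 * x) * Real.exp (3 / 2 * x) * d := by ring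
      _ ≤ B / Real.exp (3 / 4 * x) * Real.exp (3 / 2 * x) * x :=
          mul_le_mul_of_nonneg_left hsD (by positivity)
      _ ≤ Real.exp (-(x / 8)) * Real.exp (3 / 2 * x) * x := by gcongr
      _ = _ := by ring
  have e4 : ∀ c : ℝ, c ≤ 11 / 8 → Real.exp (c * x) ≤ Real.exp (-(x / 8)) * Real.exp (3 / 2 * x) :=
    fun c hc => by
      rw [← Real.exp_add]
      exact Real.exp_le_exp.2 (by nlinarith)
  have e5 := e4 (3 / 4) (by norm_num)
  have e6 := e4 (11 / 8) le_rfl
  have e7 := e4 0 (by norm_num)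
  rw [zero_mul, Real.exp_zero] at e7
  have e8 := mul_le_mul_of_nonneg_right htl (Real.exp_pos (3 / 2 * x)).le
  linarith

/-- The late process follows the cavity prediction. -/
theorem localLimit (hgrow : GrowthStmt) (hloc : LocalityStmt) (hcov : CoverStmt)
    (hhier : HierarchyStmt) : LocalLimitStmt := by
  obtain ⟨C₁, hC₁, hest⟩ := local_estimate hgrow hloc hcov hhier
  intro t C ε ht hε
  have hlgT : Tendsto lg atTop atTop := Real.tendsto_log_atTop.comp tendsto_natCast_atTop_atTop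
  obtain ⟨N, hN⟩ := eventually_atTop.1 (hlgT.eventually
    ((growth_rate ht (C₁ * |C| * 2) (ε / 2) (by positivity)).and
      ((depth_le_radius ht.le).and (ball_rate.and
        ((tail_rate (ε / 2) (by positivity)).and (aOf_bounds.and (eventually_ge_atTop (1 : ℝ))))))))
  refine ⟨max N 1, fun n hn μ hμ J hJ => ?_⟩
  obtain ⟨hgr, hdep, hball, htl, ha, hx1⟩ := hN n (le_of_max_le_left hn)
  have hn0 : (0 : ℝ) < n := by exact_mod_cast (le_of_max_le_right hn)
  set x := lg n with hxdef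
  have hexp : ∀ c : ℝ, (n : ℝ) ^ c = Real.exp (c * x) := fun c => by
    rw [hxdef, lg, Real.rpow_def_of_pos hn0]; ring_nf
  have hx0 : (0 : ℝ) < x := by linarith
  have ha0 : 0 < aOf x := lt_of_lt_of_le (by positivity) ha.1
  set P : ℝ := C₁ * (x ^ (24 / 25 : ℝ) + Real.log (1 + t / aOf x) + 1) ^ 2 *
    Real.exp (-(x ^ (24 / 25 : ℝ) * aOf x / (aOf x + t))) with hP
  set D := ⌊2 * Lv n⌋₊ with hD
  set B : ℝ := ((1 + 3 * D : ℕ) : ℝ) ^ (2 * radius n) with hB
  set lam : ℝ := (n : ℝ) ^ (3 / 4 : ℝ) with hlamdef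
  have hlam : 0 < lam := Real.rpow_pos_of_pos hn0 _
  have hP0 : 0 ≤ P := by rw [hP]; positivity
  have hper : ∀ G, μ G * expAt t (fun H => |(H.card : ℝ) - cavTot G (J G) t|) G ≤
      P * (μ G * hmom (triH G) G (r1 n - rL n)) + B / lam * (μ G * (G.card : ℝ)) +
        μ G * (lam + 1) + μ G * badBalls (radius n) G := by
    intro G
    rcases (hμ.1.1 G).eq_or_lt' with h | h
    · simp [h]
    have he := hest (Finset (Fin n)) (triH G) G (triH_linear G) (triH_subset G) (aOf x) t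
      (x ^ (24 / 25 : ℝ)) ha0 ht (Real.one_le_rpow hx1 (by norm_num)) (radius n) D hdep
      (fun a haG => by rw [hdeg_triH]; exact Nat.le_floor (hμ.2.1 G h.ne' a haG))
      (Jh (J G)) (isHCav_Jh (hJ G)) lam hlam
    rw [hcavTot_triH, ← expAt_eq_semi_hstep, aOf_lg] at he
    have hbad : ((G.filter (fun a => ¬htree (triH G) (radius n) a)).card : ℝ) =
        badBalls (radius n) G := by
      simp only [badBalls]
      congr 2
      ext a
      simp only [Finset.mem_filter, htree_triH]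
    rw [hbad] at he
    refine (mul_le_mul_of_nonneg_left he h.le).trans (le_of_eq ?_)
    rw [hP, hB, ← aOf_lg, ← hxdef]
    ring
  refine (Finset.sum_le_sum fun G _ => hper G).trans ?_
  simp only [Finset.sum_add_distrib, ← Finset.mul_sum]
  have h1 := sum_hmom_le hμ
  obtain ⟨⟨h0, hle1, -⟩, -, -, -, -, hcard, hbadb⟩ := hμ
  have hm0 : ∀ D : ℝ, 0 ≤ m0 n D := fun D => by unfold m0; positivity
  have h2 : ∑ G, μ G * (G.card : ℝ) ≤ 2 * m0 n (D1v n) := by
    have : ∑ G, μ G * (G.card : ℝ) ≤ ∑ G, μ G * |(G.card : ℝ) - m0 n (D1v n)| +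
        (∑ G, μ G) * m0 n (D1v n) := by
      rw [Finset.sum_mul, ← Finset.sum_add_distrib]
      exact Finset.sum_le_sum fun G _ => by
        nlinarith [h0 G, le_abs_self ((G.card : ℝ) - m0 n (D1v n))]
    nlinarith [hm0 (D1v n)]
  have h3 : ∑ G, μ G * (lam + 1) ≤ lam + 1 := by
    rw [← Finset.sum_mul]
    exact mul_le_of_le_one_left (by positivity) hle1
  have hsc : (n : ℝ) * Real.sqrt n = Real.exp (3 / 2 * x) := by
    rw [← hexp, show (3 / 2 : ℝ) = 1 + 1 / 2 by norm_num, Real.rpow_add hn0, Real.rpow_one,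
      Real.sqrt_eq_rpow]
  -- the growth term
  have hT1 : P * ((D + 1 : ℝ) * (|C| * m0 n (Lv n))) ≤ ε / 2 * ((n : ℝ) * Real.sqrt n) := by
    have hLeq : Lv n = x ^ (21 / 5 : ℝ) := rfl
    have hL1 : 1 ≤ Lv n := hLeq ▸ Real.one_le_rpow hx1 (by norm_num)
    have hL5 : Lv n ≤ x ^ 5 := by
      rw [hLeq, ← Real.rpow_natCast]
      exact Real.rpow_le_rpow_of_exponent_le hx1 (by norm_num)
    have hD1 : (D + 1 : ℝ) ≤ 4 * x ^ 5 := by
      have := Nat.floor_le (show 0 ≤ 2 * Lv n by linarith)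
      rw [hD]; linarith
    have hsq : Real.sqrt (Lv n) ≤ x ^ 3 := by
      rw [Real.sqrt_le_iff]
      refine ⟨by positivity, ?_⟩
      rw [← pow_mul]
      exact hL5.trans (pow_le_pow_right₀ hx1 (by norm_num))
    calc P * ((D + 1 : ℝ) * (|C| * m0 n (Lv n)))
        ≤ P * ((4 * x ^ 5) * (|C| * ((n : ℝ) * Real.sqrt n * x ^ 3 / 2))) := by
          unfold m0
          gcongr
      _ = (C₁ * |C| * 2 * (x ^ (24 / 25 : ℝ) + Real.log (1 + t / aOf x) + 1) ^ 2 *
            Real.exp (-(x ^ (24 / 25 : ℝ) * aOf x / (aOf x + t))) * x ^ 8) *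
            ((n : ℝ) * Real.sqrt n) := by rw [hP]; ring
      _ ≤ _ := mul_le_mul_of_nonneg_right hgr (by positivity)
  -- everything else
  have hT2 : B / lam * (2 * m0 n (D1v n)) + (lam + 1) + (n : ℝ) ^ (11 / 8 : ℝ) ≤
      ε / 2 * ((n : ℝ) * Real.sqrt n) :=
    rest_le n hx1 hn0 (by positivity) (by rw [hB, hD, radius_eq]; exact hball) htl
  have hm1 : P * ∑ G, μ G * hmom (triH G) G (r1 n - rL n) ≤
      P * ((D + 1 : ℝ) * (|C| * m0 n (Lv n))) := mul_le_mul_of_nonneg_left h1 hP0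
  have hm2 : B / lam * ∑ G, μ G * (G.card : ℝ) ≤ B / lam * (2 * m0 n (D1v n)) :=
    mul_le_mul_of_nonneg_left h2 (by positivity)
  rw [show ε * ((n : ℝ) * Real.sqrt n) =
    ε / 2 * ((n : ℝ) * Real.sqrt n) + ε / 2 * ((n : ℝ) * Real.sqrt n) by ring]
  linarith

end Vale.Agent.P046.Full
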