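import Vale.Agent.P046.Full.ThreeBase

/-!
P046, the exact constant, late phase: truncated removal is local.

Two chains are compared through a coupling in which matched rings act on both of them. Along the
coupling, for a point within `j` steps of the seed, the history depth capped at `k - j`, and the
presence of the point when the depth is below the cap, stay equal.
-/

namespace Vale.Agent.P046.Full

open Finset

/-! ### Couplings of rate one chains -/

section Couple

variable {ι κ ι' κ' : Type*} [Fintype ι] [Fintype κ] [Fintype ι'] [Fintype κ']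

/-- If a coupling keeps two chains in `S`, functions that agree on `S` have equal expectations. -/
lemma semi_couple (step : κ → ι → ι) (step' : κ' → ι' → ι') (m : κ → Option κ')
    (hm : ∀ i j b, m i = some b → m j = some b → i = j) (S : Set (ι × ι'))
    (hl : ∀ i x y, (x, y) ∈ S → (step i x, (m i).elim y fun b => step' b y) ∈ S)
    (hr : ∀ b, (∀ i, m i ≠ some b) → ∀ x y, (x, y) ∈ S → (x, step' b y) ∈ S)
    (t : ℝ) {f : ι → ℝ} {g : ι' → ℝ} (h : ∀ x y, (x, y) ∈ S → f x = g y) {x : ι} {y : ι'}
    (hxy : (x, y) ∈ S) : semi step t f x = semi step' t g y := by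
  classical
  set cs : κ ⊕ {b : κ' // ∀ i, m i ≠ some b} → ι × ι' → ι × ι' :=
    Sum.elim (fun i z => (step i z.1, (m i).elim z.2 fun b => step' b z.2))
      (fun b z => (z.1, step' b z.2)) with hcs
  set C1 : (ι → ℝ) →L[ℝ] (ι × ι' → ℝ) :=
    LinearMap.toContinuousLinearMap (LinearMap.funLeft ℝ ℝ Prod.fst) with hC1
  set C2 : (ι' → ℝ) →L[ℝ] (ι × ι' → ℝ) :=
    LinearMap.toContinuousLinearMap (LinearMap.funLeft ℝ ℝ Prod.snd) with hC2
  have h1 : ∀ φ, gen cs (C1 φ) = C1 (gen step φ) := by
    intro φ
    funext z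
    change gen cs (fun z => φ z.1) z = gen step φ z.1
    simp only [gen_apply, Fintype.sum_sum_type, hcs, Sum.elim_inl, Sum.elim_inr, sub_self,
      Finset.sum_const_zero, add_zero]
  have h2 : ∀ φ, gen cs (C2 φ) = C2 (gen step' φ) := by
    intro φ
    funext z
    change gen cs (fun z => φ z.2) z = gen step' φ z.2
    set d : κ' → ℝ := fun b => φ (step' b z.2) - φ z.2 with hd
    have hb : ∀ b, d b = ∑ i, (if m i = some b then d b else 0) +
        (if ∀ i, m i ≠ some b then d b else 0) := by
      intro b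
      by_cases hex : ∀ i, m i ≠ some b
      · simp [hex]
      · push Not at hex
        obtain ⟨i₀, hi₀⟩ := hex
        rw [if_neg (fun h => h i₀ hi₀), Finset.sum_eq_single i₀
          (fun j _ hj => if_neg fun h => hj (hm j i₀ b h hi₀)) (by simp), if_pos hi₀, add_zero]
    have hR : gen step' φ z.2 = ∑ b, d b := rfl
    rw [hR, Finset.sum_congr rfl fun b _ => hb b, Finset.sum_add_distrib, Finset.sum_comm]
    simp only [gen_apply, Fintype.sum_sum_type, hcs, Sum.elim_inl, Sum.elim_inr]
    congr 1
    · refine Finset.sum_congr rfl fun i _ => ?_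
      cases m i <;> simp [hd]
    · rw [← Finset.sum_filter]
      exact (Finset.sum_subtype _ (fun b => by simp) d).symm
  have e1 := congr_fun (semi_intertwine cs step C1 h1 t f) (x, y)
  have e2 := congr_fun (semi_intertwine cs step' C2 h2 t g) (x, y)
  have e3 : semi cs t (C1 f) (x, y) = semi cs t (C2 g) (x, y) := by
    refine semi_congr cs S ?_ t (fun z hz => h z.1 z.2 hz) hxy
    rintro (i | ⟨b, hb⟩) ⟨u, v⟩ huv
    · exact hl i u v huv
    · exact hr b hb u v huv
  exact (e1.symm.trans e3).trans e2

/-- Two independent copies of a chain. -/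
def pstep (step : κ → ι → ι) (step' : κ' → ι' → ι') : κ ⊕ κ' → ι × ι' → ι × ι' :=
  Sum.elim (fun i z => (step i z.1, z.2)) (fun b z => (z.1, step' b z.2))

lemma gen_pstep_mul (step : κ → ι → ι) (step' : κ' → ι' → ι') (f : ι → ℝ) (g : ι' → ℝ)
    (z : ι × ι') : gen (pstep step step') (fun z => f z.1 * g z.2) z =
      gen step f z.1 * g z.2 + f z.1 * gen step' g z.2 := by
  simp only [gen_apply, pstep, Fintype.sum_sum_type, Sum.elim_inl, Sum.elim_inr,
    Finset.sum_mul, Finset.mul_sum, sub_mul, mul_sub]

lemma semi_pstep_mul_le (step : κ → ι → ι) (step' : κ' → ι' → ι') {t : ℝ} (ht : 0 ≤ t)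
    (f : ι → ℝ) (g : ι' → ℝ) (z : ι × ι') :
    semi (pstep step step') t (fun z => f z.1 * g z.2) z ≤
      semi step t f z.1 * semi step' t g z.2 := by
  have h := semi_le_of_drift (pstep step step') ht
    (fun u z => semi step (t - u) f z.1 * semi step' (t - u) g z.2)
    (fun u z => -semi step (t - u) (gen step f) z.1 * semi step' (t - u) g z.2 +
      semi step (t - u) f z.1 * -semi step' (t - u) (gen step' g) z.2)
    (fun u _ w => ?_) (fun u _ w => le_of_eq ?_) z
  · simpa [semi_zero] using h
  · exact (((semi_apply_hasDerivAt step f w.1 (t - u)).comp_const_sub t u).mul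
      ((semi_apply_hasDerivAt step' g w.2 (t - u)).comp_const_sub t u)).hasDerivWithinAt
  · rw [gen_pstep_mul step step' (semi step (t - u) f) (semi step' (t - u) g) w,
      semi_commute_gen, semi_commute_gen]
    ring

/-- Independent chains have product expectations. -/
lemma semi_pstep_mul (step : κ → ι → ι) (step' : κ' → ι' → ι') {t : ℝ} (ht : 0 ≤ t)
    (f : ι → ℝ) (g : ι' → ℝ) (z : ι × ι') :
    semi (pstep step step') t (fun z => f z.1 * g z.2) z =
      semi step t f z.1 * semi step' t g z.2 := by
  refine le_antisymm (semi_pstep_mul_le step step' ht f g z) ?_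
  have h := semi_pstep_mul_le step step' ht (-f) g z
  have hneg : (fun z : ι × ι' => (-f) z.1 * g z.2) = -fun z : ι × ι' => f z.1 * g z.2 := by
    funext w
    simp
  rw [hneg, map_neg, map_neg, Pi.neg_apply, Pi.neg_apply, neg_mul] at h
  linarith

end Couple

/-! ### Balls -/

section Ball

variable {V : Type} [DecidableEq V]

lemma hball_mono (T : Finset (Finset V)) (a : V) {i j : ℕ} (h : i ≤ j) :
    (hball T a i).1 ⊆ (hball T a j).1 :=
  monotone_nat_of_le_succ (f := fun i => (hball T a i).1)
    (fun _ => Finset.subset_union_left) h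

lemma mem_hball_self (T : Finset (Finset V)) (a : V) (i : ℕ) : a ∈ (hball T a i).1 :=
  hball_mono T a (Nat.zero_le i) (Finset.mem_singleton_self a)

lemma mem_hball_tris {T : Finset (Finset V)} {a : V} {i : ℕ} {F : Finset V} {c : V}
    (hF : F ∈ T) (hc : c ∈ (hball T a i).1) (hcF : c ∈ F) : F ∈ (hball T a (i + 1)).2 :=
  Finset.mem_filter.2 ⟨hF, Finset.not_disjoint_iff.2 ⟨c, hcF, hc⟩⟩

lemma hball_tris_subset {T : Finset (Finset V)} {a : V} {i : ℕ} {F : Finset V}
    (hF : F ∈ (hball T a (i + 1)).2) : F ∈ T ∧ F ⊆ (hball T a (i + 1)).1 := by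
  refine ⟨(Finset.mem_filter.1 hF).1, fun c hc => ?_⟩
  exact Finset.mem_union_right _ (Finset.mem_biUnion.2 ⟨F, hF, hc⟩)

lemma hball_closed {T : Finset (Finset V)} {a : V} {i : ℕ} {F : Finset V} {c : V}
    (hF : F ∈ T) (hc : c ∈ (hball T a i).1) (hcF : c ∈ F) : F ⊆ (hball T a (i + 1)).1 :=
  (hball_tris_subset (mem_hball_tris hF hc hcF)).2

lemma hball_subset {T : Finset (Finset V)} {U : Finset V} (hT : ∀ F ∈ T, F ⊆ U) {a : V}
    (ha : a ∈ U) : ∀ i, (hball T a i).1 ⊆ U
  | 0 => Finset.singleton_subset_iff.2 ha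
  | i + 1 => Finset.union_subset (hball_subset hT ha i)
      (Finset.biUnion_subset.2 fun F hF => hT F (Finset.mem_filter.1 hF).1)

lemma hball_map {V' : Type} [DecidableEq V'] {T : Finset (Finset V)}
    {T' : Finset (Finset V')} {a : V} {φ : V → V'} {R : ℕ}
    (him : (hball T a (R + 1)).2.image (fun F : Finset V => F.image φ) = (hball T' (φ a) (R + 1)).2) :
    ∀ i ≤ R + 1, ∀ c ∈ (hball T a i).1, φ c ∈ (hball T' (φ a) i).1
  | 0, _, c, hc => by
      rw [Finset.mem_singleton.1 hc]
      exact Finset.mem_singleton_self _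
  | i + 1, hi, c, hc => by
      rcases Finset.mem_union.1 hc with h | h
      · exact hball_mono T' (φ a) (Nat.le_succ i) (hball_map him i (by omega) c h)
      · obtain ⟨F, hF, hcF⟩ := Finset.mem_biUnion.1 h
        obtain ⟨hFT, hd⟩ := Finset.mem_filter.1 hF
        obtain ⟨e, heF, he⟩ := Finset.not_disjoint_iff.1 hd
        have hFin : F ∈ (hball T a (R + 1)).2 :=
          mem_hball_tris hFT (hball_mono T a (by omega) he) heF
        have h' : F.image φ ∈ (hball T' (φ a) (R + 1)).2 :=
          him ▸ Finset.mem_image_of_mem (fun F : Finset V => F.image φ) hFin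
        exact hball_closed (hball_tris_subset h').1 (hball_map him i (by omega) e he)
          (Finset.mem_image_of_mem φ heF) (Finset.mem_image_of_mem φ hcF)

end Ball

/-! ### One stage -/

section Stage

variable {V V' : Type} [DecidableEq V] [DecidableEq V'] {k : ℕ}

/-- The points left at the end of a stage. -/
def stageOut (x : TState V k) : Finset V := x.2.1.filter (fun a => (x.2.2 a : ℕ) < k)

/-- Agreement of two states along `φ` on the levels `B`. -/
def Near (B : ℕ → Finset V) (φ : V → V') (x : TState V k) (y : TState V' k) : Prop :=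
  (∀ c ∈ B k, (c ∈ x.1 ↔ φ c ∈ y.1)) ∧ ∀ j < k, ∀ c ∈ B j,
    min (x.2.2 c : ℕ) (k - j) = min (y.2.2 (φ c) : ℕ) (k - j) ∧
      ((x.2.2 c : ℕ) < k - j → (c ∈ x.2.1 ↔ φ c ∈ y.2.1))

lemma tstep_fst (T : Finset (Finset V)) (F : T) (x : TState V k) : (tstep T k F x).1 = x.1 := by
  rw [tstep]; split_ifs <;> rfl

lemma tstep_off (T : Finset (Finset V)) (F : T) (x : TState V k) {c : V}
    (hc : c ∉ (F : Finset V)) :
    (tstep T k F x).2.2 c = x.2.2 c ∧ (c ∈ (tstep T k F x).2.1 ↔ c ∈ x.2.1) := by
  rw [tstep]
  split_ifs with h h' <;> simp [hc]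

lemma tstep_on (T : Finset (Finset V)) (F : T) (x : TState V k) {c : V}
    (hc : c ∈ (F : Finset V)) (hx : (F : Finset V) ⊆ x.1) :
    ((tstep T k F x).2.2 c : ℕ) = min k ((F : Finset V).sup (fun b => (x.2.2 b : ℕ)) + 1) ∧
      (c ∈ (tstep T k F x).2.1 ↔ c ∈ x.2.1 ∧ ¬(F : Finset V) ⊆ x.2.1) := by
  rw [tstep, if_pos hx]
  refine ⟨by simp [hc], ?_⟩
  dsimp only
  split_ifs with h <;> simp [hc, h]

variable {B : ℕ → Finset V} {φ : V → V'} {x : TState V k} {y : TState V' k}

omit [DecidableEq V'] in
lemma near_left (T : Finset (Finset V)) (F : T) (hn : Near B φ x y)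
    (h : ∀ j < k, ∀ c ∈ B j, c ∉ (F : Finset V)) : Near B φ (tstep T k F x) y := by
  refine ⟨fun c hc => by rw [tstep_fst]; exact hn.1 c hc, fun j hj c hc => ?_⟩
  obtain ⟨e1, e2⟩ := tstep_off T F x (h j hj c hc)
  rw [e1, e2]
  exact hn.2 j hj c hc

omit [DecidableEq V] in
lemma near_right (T' : Finset (Finset V')) (F : T') (hn : Near B φ x y)
    (h : ∀ j < k, ∀ c ∈ B j, φ c ∉ (F : Finset V')) : Near B φ x (tstep T' k F y) := by
  refine ⟨fun c hc => by rw [tstep_fst]; exact hn.1 c hc, fun j hj c hc => ?_⟩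
  obtain ⟨e1, e2⟩ := tstep_off T' F y (h j hj c hc)
  rw [e1, e2]
  exact hn.2 j hj c hc

lemma near_joint (T : Finset (Finset V)) (T' : Finset (Finset V')) (F : T) (F' : T')
    (D : Finset V) (hinj : Set.InjOn φ (D : Set V)) (hFD : (F : Finset V) ⊆ D)
    (hBD : ∀ j < k, B j ⊆ D) (hB : Monotone B)
    (hcl : ∀ j < k, ∀ c ∈ B j, c ∈ (F : Finset V) → (F : Finset V) ⊆ B (j + 1))
    (hF' : (F' : Finset V') = (F : Finset V).image φ) (hn : Near B φ x y) :
    Near B φ (tstep T k F x) (tstep T' k F' y) := by
  refine ⟨fun c hc => by rw [tstep_fst, tstep_fst]; exact hn.1 c hc, fun j hj c hc => ?_⟩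
  obtain ⟨hρ, hP⟩ := hn.2 j hj c hc
  by_cases hcF : c ∈ (F : Finset V)
  swap
  · have hc' : φ c ∉ (F' : Finset V') := by
      rw [hF', Finset.mem_image]
      rintro ⟨e, he, hec⟩
      exact hcF (hinj (hFD he) (hBD j hj hc) hec ▸ he)
    obtain ⟨e1, e2⟩ := tstep_off T F x hcF
    obtain ⟨e1', e2'⟩ := tstep_off T' F' y hc'
    rw [e1, e2, e1', e2']
    exact ⟨hρ, hP⟩
  have hFk : (F : Finset V) ⊆ B (j + 1) := hcl j hj c hc hcF
  have hH : (F : Finset V) ⊆ x.1 ↔ (F' : Finset V') ⊆ y.1 := by
    rw [hF', Finset.image_subset_iff]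
    exact forall₂_congr fun e he => hn.1 e (hB (show j + 1 ≤ k from hj) (hFk he))
  by_cases hx : (F : Finset V) ⊆ x.1
  swap
  · rw [tstep, if_neg hx, tstep, if_neg (mt hH.2 hx)]
    exact ⟨hρ, hP⟩
  have hc' : φ c ∈ (F' : Finset V') := hF' ▸ Finset.mem_image_of_mem φ hcF
  obtain ⟨e1, e2⟩ := tstep_on T F x hcF hx
  obtain ⟨e1', e2'⟩ := tstep_on T' F' y hc' (hH.1 hx)
  rw [e1, e2, e1', e2']
  -- the depths of the points of `F`, capped one lower
  have hcap : ∀ e ∈ (F : Finset V),
      min (x.2.2 e : ℕ) (k - j - 1) = min (y.2.2 (φ e) : ℕ) (k - j - 1) := by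
    intro e he
    rcases lt_or_ge (j + 1) k with h | h
    · have := (hn.2 (j + 1) h e (hFk he)).1
      omega
    · omega
  set S := (F : Finset V).sup (fun e => (x.2.2 e : ℕ)) with hS
  set S' := (F' : Finset V').sup (fun e => (y.2.2 e : ℕ)) with hS'
  have hSS : min S (k - j - 1) = min S' (k - j - 1) := by
    rw [hS, hS', hF', Finset.sup_image]
    refine (Finset.sup_inf_distrib_right _ _ _).trans
      (Eq.trans ?_ (Finset.sup_inf_distrib_right _ _ _).symm)
    exact Finset.sup_congr rfl hcap
  refine ⟨by omega, fun hlt => ?_⟩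
  have hSlt : S < k - j - 1 := by omega
  have hjk : j + 1 < k := by omega
  have hPF : ∀ e ∈ (F : Finset V), (e ∈ x.2.1 ↔ φ e ∈ y.2.1) := by
    intro e he
    refine (hn.2 (j + 1) hjk e (hFk he)).2 ?_
    have : (x.2.2 e : ℕ) ≤ S := Finset.le_sup (f := fun e => (x.2.2 e : ℕ)) he
    omega
  refine and_congr (hPF c hcF) (not_congr ?_)
  rw [hF', Finset.image_subset_iff]
  exact forall₂_congr hPF

omit [DecidableEq V] [DecidableEq V'] in
lemma near_init {H : Finset V} {H' : Finset V'} (hB : Monotone B)
    (h : ∀ c ∈ B k, (c ∈ H ↔ φ c ∈ H')) :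
    Near B φ ((H, H, fun _ => 0) : TState V k) ((H', H', fun _ => 0) : TState V' k) :=
  ⟨h, fun _ hj c hc => ⟨rfl, fun _ => h c (hB hj.le hc)⟩⟩

lemma near_out (hn : Near B φ x y) : ∀ c ∈ B 0, (c ∈ stageOut x ↔ φ c ∈ stageOut y) := by
  intro c hc
  simp only [stageOut, Finset.mem_filter]
  rcases Nat.eq_zero_or_pos k with hk | hk
  · constructor <;> intro h <;> omega
  obtain ⟨hρ, hP⟩ := hn.2 0 hk c hc
  constructor
  · rintro ⟨h1, h2⟩
    exact ⟨(hP (by omega)).1 h1, by omega⟩
  · rintro ⟨h1, h2⟩
    exact ⟨(hP (by omega)).2 h1, by omega⟩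

end Stage

/-! ### All stages -/

section Stages

variable {V V' : Type} [Fintype V] [DecidableEq V] [Fintype V'] [DecidableEq V']

lemma depth_cons (p : ℝ × ℕ) (s : List (ℝ × ℕ)) : depth (p :: s) = p.2 + depth s := rfl

/-- A function of the ball of radius `r` becomes, through the schedule `s`, the same function on
both sides of an isomorphism of balls. -/
lemma trunc_congr {T : Finset (Finset V)} {T' : Finset (Finset V')} {a : V} {φ : V → V'} {R : ℕ}
    (hinj : Set.InjOn φ ((hball T a (R + 1)).1 : Set V))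
    (him : (hball T a (R + 1)).2.image (fun F : Finset V => F.image φ) = (hball T' (φ a) (R + 1)).2)
    (s : List (ℝ × ℕ)) : ∀ r, r + depth s ≤ R → ∀ (f : Finset V → ℝ) (g : Finset V' → ℝ),
      (∀ H H', (∀ c ∈ (hball T a r).1, (c ∈ H ↔ φ c ∈ H')) → f H = g H') →
      ∀ H H', (∀ c ∈ (hball T a (r + depth s)).1, (c ∈ H ↔ φ c ∈ H')) →
        truncExp T s f H = truncExp T' s g H' := by
  induction s with
  | nil =>
    intro r _ f g hfg H H' hH
    exact hfg H H' hH
  | cons p rest ih =>
    obtain ⟨Δ, k⟩ := p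
    intro r hr f g hfg H H' hH
    rw [depth_cons] at hr hH
    simp only at hr hH
    have hin := ih r (by omega) f g hfg
    set r' := r + depth rest with hr'
    set B : ℕ → Finset V := fun j => (hball T a (r' + j)).1 with hBdef
    have hBm : Monotone B := fun i j hij => hball_mono T a (by omega)
    have hH' : ∀ c ∈ B k, (c ∈ H ↔ φ c ∈ H') := fun c hc =>
      hH c (hball_mono T a (by omega) hc)
    let m : T → Option T' := fun F =>
      if h : (F : Finset V) ∈ (hball T a (R + 1)).2 then
        some ⟨(F : Finset V).image φ,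
          (hball_tris_subset (him ▸ Finset.mem_image_of_mem (fun F : Finset V => F.image φ) h)).1⟩
      else none
    change semi (tstep T k) Δ (fun x => truncExp T rest f (stageOut x)) (H, H, fun _ => 0) =
      semi (tstep T' k) Δ (fun x => truncExp T' rest g (stageOut x)) (H', H', fun _ => 0)
    refine semi_couple (tstep T k) (tstep T' k) m ?_ {z | Near B φ z.1 z.2} ?_ ?_ Δ ?_
      (near_init hBm hH')
    · intro F G b hFb hGb
      simp only [m] at hFb hGb
      split_ifs at hFb with hF
      split_ifs at hGb with hG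
      have he : (F : Finset V).image φ = (G : Finset V).image φ :=
        congrArg Subtype.val ((Option.some.inj hFb).trans (Option.some.inj hGb).symm)
      apply Subtype.ext
      have := congrArg (fun s : Finset V' => (s : Set V')) he
      simp only [Finset.coe_image] at this
      exact Finset.coe_injective ((hinj.image_eq_image_iff
        (Finset.coe_subset.2 (hball_tris_subset hF).2)
        (Finset.coe_subset.2 (hball_tris_subset hG).2)).1 this)
    · intro F x y hxy
      by_cases hF : (F : Finset V) ∈ (hball T a (R + 1)).2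
      · simp only [m, dif_pos hF, Option.elim_some]
        exact near_joint T T' F _ (hball T a (R + 1)).1 hinj (hball_tris_subset hF).2
          (fun j hj => hball_mono T a (by omega)) hBm
          (fun j _ c hc hcF => hball_closed F.2 hc hcF) rfl hxy
      · simp only [m, dif_neg hF, Option.elim_none]
        exact near_left T F hxy fun j hj c hc hcF =>
          hF (mem_hball_tris F.2 (hball_mono T a (by omega) hc) hcF)
    · intro b hb x y hxy
      refine near_right T' b hxy fun j hj c hc hcb => ?_
      have hb' : (b : Finset V') ∈ (hball T' (φ a) (R + 1)).2 :=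
        mem_hball_tris b.2 (hball_map him R (by omega) c (hball_mono T a (by omega) hc)) hcb
      rw [← him, Finset.mem_image] at hb'
      obtain ⟨F, hF, hFb⟩ := hb'
      refine hb ⟨F, (hball_tris_subset hF).1⟩ ?_
      simp only [m, dif_pos hF]
      exact congrArg some (Subtype.ext hFb)
    · intro x y hxy
      exact hin _ _ (near_out hxy)

/-- Two functions of disjoint balls stay independent through the schedule `s`. -/
lemma trunc_indep {T : Finset (Finset V)} {a b : V} {R : ℕ}
    (hdis : Disjoint (hball T a (R + 1)).1 (hball T b (R + 1)).1)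
    (s : List (ℝ × ℕ)) (hs : ∀ p ∈ s, 0 ≤ p.1) : ∀ r, r + depth s ≤ R →
      ∀ (f g : Finset V → ℝ),
      (∀ H H', (∀ c ∈ (hball T a r).1, (c ∈ H ↔ c ∈ H')) → f H = f H') →
      (∀ H H', (∀ c ∈ (hball T b r).1, (c ∈ H ↔ c ∈ H')) → g H = g H') →
      ∀ H, truncExp T s (fun H => f H * g H) H = truncExp T s f H * truncExp T s g H := by
  induction s with
  | nil =>
    intro r _ f g _ _ H
    rfl
  | cons p rest ih =>
    obtain ⟨Δ, k⟩ := p
    intro r hr f g hf hg H
    rw [depth_cons] at hr
    simp only at hr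
    have hΔ : 0 ≤ Δ := hs (Δ, k) List.mem_cons_self
    have hprod := ih (fun q hq => hs q (List.mem_cons_of_mem _ hq)) r (by omega) f g hf hg
    set r' := r + depth rest with hr'
    have hid : ∀ c : V, (hball T c (R + 1)).2.image (fun F => F.image id) =
        (hball T (id c) (R + 1)).2 := fun c => by simp
    have hca := trunc_congr (T := T) (T' := T) (a := a) (φ := id) (Set.injOn_id _) (hid a) rest
      r (by omega) f f hf
    have hcb := trunc_congr (T := T) (T' := T) (a := b) (φ := id) (Set.injOn_id _) (hid b) rest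
      r (by omega) g g hg
    set Ba : ℕ → Finset V := fun j => (hball T a (r' + j)).1 with hBa
    set Bb : ℕ → Finset V := fun j => (hball T b (r' + j)).1 with hBb
    have hBam : Monotone Ba := fun i j hij => hball_mono T a (by omega)
    have hBbm : Monotone Bb := fun i j hij => hball_mono T b (by omega)
    set fa : TState V k → ℝ := fun x => truncExp T rest f (stageOut x) with hfa
    set fb : TState V k → ℝ := fun x => truncExp T rest g (stageOut x) with hfb
    change semi (tstep T k) Δ (fun x => truncExp T rest (fun H => f H * g H) (stageOut x))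
        (H, H, fun _ => 0) =
      semi (tstep T k) Δ fa (H, H, fun _ => 0) * semi (tstep T k) Δ fb (H, H, fun _ => 0)
    rw [← semi_pstep_mul (tstep T k) (tstep T k) hΔ fa fb
      ((H, H, fun _ => 0), (H, H, fun _ => 0))]
    -- no hyperedge meets both balls
    have hsep : ∀ F : T, (F : Finset V) ∈ (hball T a (R + 1)).2 →
        ∀ c ∈ (hball T b R).1, c ∉ (F : Finset V) := fun F hF c hc hcF =>
      Finset.disjoint_left.1 hdis ((hball_tris_subset hF).2 hcF)
        (hball_mono T b (Nat.le_succ R) hc)
    let m : T → Option (T ⊕ T) := fun F =>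
      if (F : Finset V) ∈ (hball T a (R + 1)).2 then some (Sum.inl F)
      else if (F : Finset V) ∈ (hball T b (R + 1)).2 then some (Sum.inr F) else none
    refine semi_couple (tstep T k) (pstep (tstep T k) (tstep T k)) m ?_
      {z | Near Ba id z.1 z.2.1 ∧ Near Bb id z.1 z.2.2} ?_ ?_ Δ ?_
      ⟨near_init hBam fun c _ => Iff.rfl, near_init hBbm fun c _ => Iff.rfl⟩
    · intro F G q hF hG
      simp only [m] at hF hG
      split_ifs at hF <;> split_ifs at hG <;> cases hF <;> cases hG <;> rfl
    · rintro F x ⟨y, z⟩ ⟨hy, hz⟩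
      by_cases hA : (F : Finset V) ∈ (hball T a (R + 1)).2
      · simp only [m, if_pos hA, Option.elim_some, pstep, Sum.elim_inl]
        exact ⟨near_joint T T F F (hball T a (R + 1)).1 (Set.injOn_id _) (hball_tris_subset hA).2
          (fun j hj => hball_mono T a (by omega)) hBam
          (fun j _ c hc hcF => hball_closed F.2 hc hcF) (Finset.image_id).symm hy,
          near_left T F hz fun j hj c hc =>
            hsep F hA c (hball_mono T b (by omega) hc)⟩
      · have hleft : Near Ba id (tstep T k F x) y := near_left T F hy fun j hj c hc hcF =>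
          hA (mem_hball_tris F.2 (hball_mono T a (by omega) hc) hcF)
        by_cases hB : (F : Finset V) ∈ (hball T b (R + 1)).2
        · simp only [m, if_neg hA, if_pos hB, Option.elim_some, pstep, Sum.elim_inr]
          exact ⟨hleft, near_joint T T F F (hball T b (R + 1)).1 (Set.injOn_id _)
            (hball_tris_subset hB).2 (fun j hj => hball_mono T b (by omega)) hBbm
            (fun j _ c hc hcF => hball_closed F.2 hc hcF) (Finset.image_id).symm hz⟩
        · simp only [m, if_neg hA, if_neg hB, Option.elim_none]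
          exact ⟨hleft, near_left T F hz fun j hj c hc hcF =>
            hB (mem_hball_tris F.2 (hball_mono T b (by omega) hc) hcF)⟩
    · rintro (F | F) hq x ⟨y, z⟩ ⟨hy, hz⟩
      · refine ⟨near_right T F hy fun j hj c hc hcF => ?_, hz⟩
        have hA : (F : Finset V) ∈ (hball T a (R + 1)).2 :=
          mem_hball_tris F.2 (hball_mono T a (by omega) hc) hcF
        exact hq F (by simp only [m, if_pos hA])
      · refine ⟨hy, near_right T F hz fun j hj c hc hcF => ?_⟩
        have hc' : c ∈ (hball T b R).1 := hball_mono T b (by omega) hc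
        have hB : (F : Finset V) ∈ (hball T b (R + 1)).2 := mem_hball_tris F.2 hc' hcF
        have hA : (F : Finset V) ∉ (hball T a (R + 1)).2 := fun hA => hsep F hA c hc' hcF
        exact hq F (by simp only [m, if_neg hA, if_pos hB])
    · rintro x ⟨y, z⟩ ⟨hy, hz⟩
      simp only [hfa, hfb]
      rw [hprod (stageOut x), hca _ _ (near_out hy), hcb _ _ (near_out hz)]

end Stages

theorem locality : LocalityStmt := by
  refine ⟨?_, ?_⟩
  · intro V V' _ _ _ _ T U T' U' _ _ hT hT' s _ a ha φ hφa hinj him
    refine trunc_congr hinj him s 0 (by omega) _ _ ?_ U U' ?_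
    · intro H H' h
      exact if_congr (h a (Finset.mem_singleton_self a)) rfl rfl
    · intro c hc
      rw [Nat.zero_add] at hc
      exact iff_of_true (hball_subset hT ha _ hc)
        (hball_subset hT' hφa _ (hball_map him _ (Nat.le_succ _) c hc))
  · intro V _ _ T U _ _ s hs a _ b _ hdis
    rw [← trunc_indep hdis s hs 0 (by omega) _ _
      (fun H H' h => if_congr (h a (Finset.mem_singleton_self a)) rfl rfl)
      (fun H H' h => if_congr (h b (Finset.mem_singleton_self b)) rfl rfl) U]
    congr 1
    funext H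
    by_cases h1 : a ∈ H <;> by_cases h2 : b ∈ H <;> simp [h1, h2]

end Vale.Agent.P046.Full
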