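import Vale.Agent.P046.Full.Final
import Vale.Agent.P046.Full.LocalLimit
import Vale.Agent.P046.Full.Growth.Main
import Vale.Agent.P046.Full.Locality
import Vale.Agent.P046.Full.CertTwo
import Vale.Agent.P046.Full.Two.Final
import Vale.Agent.P046.Full.CertFour
import Vale.Agent.P046.Full.Four.Exists
import Vale.Agent.P046.Full.Four.Limit
import Vale.Agent.P046.Full.Cover.Hierarchy
import Vale.Agent.P046.Full.Cover.Lift

/-!
P046: assembly of the exact constant from its modules.
-/

namespace Vale.Agent.P046.Full

/-- The exact constant from the first phase. -/
theorem main_from (hone : PhaseOneStmt) : MainStmt :=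
  main_of hone (phaseTwo certTwo) Four.cavExists 
    (localLimit Growth.growth locality Cover.cover Cover.hierarchy)
    (Four.cavLimit certFour)

end Vale.Agent.P046.Full
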