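import Vale.Agent.P046.Defs

/-!
P046, the exact constant: the continuous time process, the quantities controlled along it, and the
data handed from one phase of the proof to the next.
-/

namespace Vale.Agent.P046.Full

open Finset
open Vale.Agent.P046

/-! ### Rate one jump chains on a finite state space -/

section Chain

variable {ι κ : Type*} [Fintype ι] [Fintype κ]

/-- The generator of the chain in which every `k` rings at rate one and moves `x` to `step k x`. -/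
noncomputable def gen (step : κ → ι → ι) : (ι → ℝ) →L[ℝ] (ι → ℝ) :=
  LinearMap.toContinuousLinearMap
    { toFun := fun f x => ∑ k, (f (step k x) - f x)
      map_add' := by
        intro f g
        funext x
        simp only [Pi.add_apply, ← Finset.sum_add_distrib]
        exact Finset.sum_congr rfl fun k _ => by ring
      map_smul' := by
        intro c f
        funext x
        simp only [Pi.smul_apply, smul_eq_mul, RingHom.id_apply, Finset.mul_sum]
        exact Finset.sum_congr rfl fun k _ => by ring }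

/-- The semigroup: `semi step t f x` is the expectation of `f` at time `t` starting from `x`. -/
noncomputable def semi (step : κ → ι → ι) (t : ℝ) : (ι → ℝ) →L[ℝ] (ι → ℝ) :=
  NormedSpace.exp (t • gen step)

end Chain

/-- Ringing of `E` in the removal process. -/
def rstep {n : ℕ} (E : Finset (Fin n)) (G : Gr n) : Gr n :=
  if E ∈ tri G then rem G E else G

/-- The expectation of `f` at time `t` from `G`, every present triangle ringing at rate one. -/
noncomputable def expAt {n : ℕ} (t : ℝ) (f : Gr n → ℝ) (G : Gr n) : ℝ :=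
  semi (rstep (n := n)) t f G

/-! ### Time scales -/

/-- The predicted codegree at time `s`. -/
noncomputable def Dt (n : ℕ) (s : ℝ) : ℝ := (n : ℝ) / (1 + 2 * (n : ℝ) * s)

/-- `log n`. -/
noncomputable def lg (n : ℕ) : ℝ := Real.log (n : ℝ)

/-- The predicted codegree at the end of the first phase. -/
noncomputable def Lv (n : ℕ) : ℝ := lg n ^ (21 / 5 : ℝ)

/-- The predicted codegree at the end of the second phase. -/
noncomputable def D1v (n : ℕ) : ℝ := lg n ^ (9 / 10 : ℝ)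

/-- The time at which `Dt` equals `D`. -/
noncomputable def timeOf (n : ℕ) (D : ℝ) : ℝ := (1 / D - 1 / (n : ℝ)) / 2

noncomputable def rL (n : ℕ) : ℝ := timeOf n (Lv n)

noncomputable def r1 (n : ℕ) : ℝ := timeOf n (D1v n)

/-- The predicted number of edges when the predicted codegree is `D`. -/
noncomputable def m0 (n : ℕ) (D : ℝ) : ℝ := (n : ℝ) * Real.sqrt n * Real.sqrt D / 2

/-- The radius up to which the late process is local. -/
noncomputable def radius (n : ℕ) : ℕ := ⌈256 * lg n ^ (24 / 25 : ℝ)⌉₊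

/-! ### Quantities of a graph at predicted codegree `D` -/

/-- Two edges are neighbours when a present triangle contains both. -/
def nbrs {n : ℕ} (G : Gr n) (g : Finset (Fin n)) : Finset (Finset (Fin n)) :=
  G.filter (fun f => f ≠ g ∧ ∃ E ∈ tri G, g ∈ sides E ∧ f ∈ sides E)

/-- The relative codegree error. -/
noncomputable def xg {n : ℕ} (D : ℝ) (G : Gr n) (g : Finset (Fin n)) : ℝ := (deg G g : ℝ) / D - 1

/-- The neighbour sum of the relative errors over `D`. -/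
noncomputable def om {n : ℕ} (D : ℝ) (G : Gr n) (g : Finset (Fin n)) : ℝ :=
  (∑ f ∈ nbrs G g, xg D G f) / D

noncomputable def potV {n : ℕ} (D : ℝ) (G : Gr n) : ℝ := ∑ g ∈ G, xg D G g ^ 2

noncomputable def potU4 {n : ℕ} (D : ℝ) (G : Gr n) : ℝ := ∑ g ∈ G, xg D G g ^ 4

noncomputable def potW {n : ℕ} (D : ℝ) (G : Gr n) : ℝ := ∑ g ∈ G, om D G g ^ 2

/-- The weight of the second phase: quartic near zero, quadratic at infinity. -/
noncomputable def psiU (x : ℝ) : ℝ := x ^ 4 / (1 + x + 4 * x ^ 2)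

noncomputable def potU {n : ℕ} (D : ℝ) (G : Gr n) : ℝ := ∑ g ∈ G, psiU (xg D G g)

/-- The number of two step neighbour paths from `g` to `h`. -/
def paths2 {n : ℕ} (G : Gr n) (g h : Finset (Fin n)) : ℕ :=
  ((nbrs G g).filter (fun f => h ∈ nbrs G f)).card

/-- Pairs of two step paths with the same distinct ends. -/
def quad {n : ℕ} (G : Gr n) : ℕ :=
  ∑ g ∈ G, ∑ h ∈ G.erase g, paths2 G g h * (paths2 G g h - 1)

/-- The edges and the triangles within `R` triangle steps of `g`. -/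
def ball {n : ℕ} (G : Gr n) (g : Finset (Fin n)) :
    ℕ → Finset (Finset (Fin n)) × Finset (Finset (Fin n))
  | 0 => ({g}, ∅)
  | R + 1 =>
    let T := (tri G).filter (fun E => ¬Disjoint (sides E) (ball G g R).1)
    ((ball G g R).1 ∪ T.biUnion sides, T)

/-- The ball is a hypertree: every triangle brings two new edges. -/
def treeBall {n : ℕ} (G : Gr n) (R : ℕ) (g : Finset (Fin n)) : Prop :=
  (ball G g R).1.card = 2 * (ball G g R).2.card + 1

/-- The number of edges whose ball is no hypertree. -/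
noncomputable def badBalls {n : ℕ} (R : ℕ) (G : Gr n) : ℝ := by
  classical exact ((G.filter (fun g => ¬treeBall G R g)).card : ℝ)

/-! ### The data handed between the phases -/

/-- `μ` is, up to `err`, the law of the process at time `s` started from `K_n`. -/
def CloseTo {n : ℕ} (μ : Gr n → ℝ) (s err : ℝ) : Prop :=
  (∀ G, 0 ≤ μ G) ∧ ∑ G, μ G ≤ 1 ∧
    ∀ f : Gr n → ℝ, (∀ G, 0 ≤ f G ∧ f G ≤ 1) → |∑ G, μ G * f G - expAt s f (complete n)| ≤ err

/-- What the first phase gives, at predicted codegree `Lv n`. -/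
def EarlyData (C ε : ℝ) (n : ℕ) (μ : Gr n → ℝ) : Prop :=
  CloseTo μ (rL n) (1 / (n : ℝ) ^ 8) ∧
  (∀ G, μ G ≠ 0 → ∀ g ∈ G, Lv n / 2 ≤ deg G g ∧ (deg G g : ℝ) ≤ 2 * Lv n) ∧
  ∑ G, μ G * potV (Lv n) G ≤ C * m0 n (Lv n) / Lv n ∧
  ∑ G, μ G * potU4 (Lv n) G ≤ C * m0 n (Lv n) / Lv n ^ 2 ∧
  ∑ G, μ G * potW (Lv n) G ≤ C * lg n ^ 3 * m0 n (Lv n) / Lv n ^ 2 ∧
  ∑ G, μ G * |(G.card : ℝ) - m0 n (Lv n)| ≤ ε * m0 n (Lv n) ∧
  ∑ G, μ G * badBalls (radius n) G ≤ (n : ℝ) ^ (11 / 8 : ℝ) ∧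
  ∑ G, μ G * (quad G : ℝ) ≤ (n : ℝ) ^ (11 / 8 : ℝ)

/-- What the second phase gives, at predicted codegree `D1v n`. -/
def MidData (C ε : ℝ) (n : ℕ) (μ : Gr n → ℝ) : Prop :=
  CloseTo μ (r1 n) (1 / (n : ℝ) ^ 8) ∧
  (∀ G, μ G ≠ 0 → ∀ g ∈ G, (deg G g : ℝ) ≤ 2 * Lv n) ∧
  (∀ y : ℕ, ∑ G, μ G * ((G.filter (fun g => y ≤ deg G g)).card : ℝ) ≤
    C * m0 n (Lv n) * Real.exp (-(y : ℝ) * (r1 n - rL n))) ∧
  ∑ G, μ G * potU (D1v n) G ≤ m0 n (D1v n) * D1v n ^ (-6 / 5 : ℝ) ∧
  ∑ G, μ G * potW (D1v n) G ≤ m0 n (D1v n) * D1v n ^ (-23 / 20 : ℝ) ∧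
  ∑ G, μ G * |(G.card : ℝ) - m0 n (D1v n)| ≤ ε * m0 n (D1v n) ∧
  ∑ G, μ G * badBalls (radius n) G ≤ (n : ℝ) ^ (11 / 8 : ℝ)

/-! ### The cavity system of a graph -/

/-- The product of the survival factors of `a` over its triangles other than `F`. -/
noncomputable def zOf {n : ℕ} (G : Gr n) (J : Finset (Fin n) → Finset (Fin n) → ℝ → ℝ)
    (a F : Finset (Fin n)) (s : ℝ) : ℝ :=
  ∏ E ∈ (tri G).filter (fun E => a ∈ sides E ∧ E ≠ F), (1 - J a E s)

/-- `J a F s` is the chance, on the universal cover, that `F` has fired by time `s` in the world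
where `a` has no other triangle. -/
def IsCav {n : ℕ} (G : Gr n) (J : Finset (Fin n) → Finset (Fin n) → ℝ → ℝ) : Prop :=
  ∀ a F, F ∈ tri G → a ∈ sides F → J a F 0 = 0 ∧ ∀ s : ℝ, 0 ≤ s →
    (0 ≤ J a F s ∧ J a F s ≤ 1 - Real.exp (-s)) ∧
    HasDerivWithinAt (J a F) (Real.exp (-s) * ∏ b ∈ (sides F).erase a, zOf G J b F s) (Set.Ici 0) s

/-- The cavity prediction of the number of edges left at time `s`. -/
noncomputable def cavTot {n : ℕ} (G : Gr n) (J : Finset (Fin n) → Finset (Fin n) → ℝ → ℝ)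
    (s : ℝ) : ℝ :=
  ∑ g ∈ G, ∏ E ∈ (tri G).filter (fun E => g ∈ sides E), (1 - J g E s)

/-- The limit of `|G_t| / n^{3/2}` at late time `t`. -/
noncomputable def cLim (t : ℝ) : ℝ := 1 / (2 * Real.sqrt (2 * (1 - Real.exp (-t))))

/-! ### Statements of the modules -/

def SandwichStmt : Prop := ∀ n : ℕ, ∀ φ : ℕ → ℝ, ∀ t : ℝ, 0 ≤ t → Monotone φ → ∀ G : Gr n,
  expAt t (fun H => φ (H.card - 3 * (tri H).card)) G ≤ expectFinal φ G ∧
  expectFinal φ G ≤ expAt t (fun H => φ H.card) G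

def PhaseOneStmt : Prop := ∃ C : ℝ, ∀ ε : ℝ, 0 < ε → ∃ N : ℕ, ∀ n ≥ N,
  ∃ μ : Gr n → ℝ, EarlyData C ε n μ

def PhaseTwoStmt : Prop := PhaseOneStmt → ∃ C : ℝ, ∀ ε : ℝ, 0 < ε → ∃ N : ℕ, ∀ n ≥ N,
  ∃ μ : Gr n → ℝ, MidData C ε n μ

def CavExistsStmt : Prop := ∀ n : ℕ, ∀ G : Gr n, ∃ J, IsCav G J

def LocalLimitStmt : Prop := ∀ t C ε : ℝ, 0 < t → 0 < ε → ∃ N : ℕ, ∀ n ≥ N,
  ∀ μ : Gr n → ℝ, MidData C 1 n μ → ∀ J : ∀ _ : Gr n, Finset (Fin n) → Finset (Fin n) → ℝ → ℝ,
    (∀ G, IsCav G (J G)) →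
      ∑ G, μ G * expAt t (fun H => |(H.card : ℝ) - cavTot G (J G) t|) G ≤ ε * ((n : ℝ) * Real.sqrt n)

def CavLimitStmt : Prop := ∀ t C ε : ℝ, 0 < t → 0 < ε → ∃ δ : ℝ, 0 < δ ∧ ∃ N : ℕ, ∀ n ≥ N,
  ∀ μ : Gr n → ℝ, MidData C δ n μ → ∀ J : ∀ _ : Gr n, Finset (Fin n) → Finset (Fin n) → ℝ → ℝ,
    (∀ G, IsCav G (J G)) →
      ∑ G, μ G * |cavTot G (J G) t - cLim t * ((n : ℝ) * Real.sqrt n)| ≤
        ε * ((n : ℝ) * Real.sqrt n)

/-- The real inequality behind the second phase. -/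
def CertTwoStmt : Prop := ∀ a b c : ℝ, -1 < a → -1 < b → -1 < c →
  -(1 / 2) * (psiU a * a / (1 + a) + deriv psiU a * (b + c) +
      (psiU b * b / (1 + b) + deriv psiU b * (a + c)) +
      (psiU c * c / (1 + c) + deriv psiU c * (a + b))) ≤
    221 / 100 * (psiU a / (1 + a) + psiU b / (1 + b) + psiU c / (1 + c))

/-- The real inequality behind the cavity comparison. -/
def CertFourStmt : Prop := ∀ p q r : ℝ, 0 < p → 0 < q → 0 < r →
  -(p * q * r * Real.log (p * q * r)) + (p - 1) + (q - 1) + (r - 1) ≤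
    6 / 5 * ((p * Real.log p - p + 1) + (q * Real.log q - q + 1) + (r * Real.log r - r + 1))

def MainStmt : Prop :=
  Filter.Tendsto (fun n : ℕ => expectFinal (fun e => (e : ℝ)) (complete n) /
      ((n : ℝ) * Real.sqrt n)) Filter.atTop (nhds (1 / (2 * Real.sqrt 2))) ∧
  ∀ ε : ℝ, 0 < ε → Filter.Tendsto (fun n : ℕ => expectFinal
      (fun e => if ε < |(e : ℝ) / ((n : ℝ) * Real.sqrt n) - 1 / (2 * Real.sqrt 2)| then 1 else 0)
      (complete n)) Filter.atTop (nhds 0)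

end Vale.Agent.P046.Full
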