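import Vale.Agent.P046.Full.Sandwich

/-!
P046, the exact constant: from the phases to the limit of `F_n / n^{3/2}`.
-/

namespace Vale.Agent.P046.Full

open Finset Filter Topology
open Vale.Agent.P046

/-- `n^{3/2}`. -/
noncomputable def sc (n : ℕ) : ℝ := (n : ℝ) * Real.sqrt n

lemma final_add {n : ℕ} (φ ψ : ℕ → ℝ) (G : Gr n) :
    expectFinal (fun e => φ e + ψ e) G = expectFinal φ G + expectFinal ψ G := by
  induction G using Finset.strongInduction with
  | H G ih =>
    by_cases hT : tri G = ∅
    · rw [expectFinal_stop _ hT, expectFinal_stop φ hT, expectFinal_stop ψ hT]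
    · rw [expectFinal_step _ hT, expectFinal_step φ hT, expectFinal_step ψ hT,
        Finset.sum_congr rfl fun D hD => ih _ ((Finset.ssubset_iff_subset_ne).2
          ⟨rem_subset G D, fun he => (card_rem_lt hD).ne (by rw [he])⟩),
        Finset.sum_add_distrib, add_div]

lemma midData_mono {C ε ε' : ℝ} {n : ℕ} {μ : Gr n → ℝ} (h : MidData C ε n μ) (he : ε ≤ ε') :
    MidData C ε' n μ := by
  obtain ⟨h1, h2, h3, h4, h5, h6, h7⟩ := h
  refine ⟨h1, h2, h3, h4, h5, h6.trans (mul_le_mul_of_nonneg_right he ?_), h7⟩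
  unfold m0; positivity

lemma r1_nonneg {n : ℕ} (hn : 3 ≤ n) : 0 ≤ r1 n := by
  have hn' : (3 : ℝ) ≤ n := by exact_mod_cast hn
  have hl : (1 : ℝ) ≤ lg n := by
    rw [lg, Real.le_log_iff_exp_le (by linarith)]
    linarith [Real.exp_one_lt_d9]
  have hln : lg n ≤ n := (Real.log_le_sub_one_of_pos (by linarith)).trans (by linarith)
  have hpos : 0 < D1v n := Real.rpow_pos_of_pos (by linarith) _
  have hD : D1v n ≤ n :=
    (Real.rpow_le_self_of_one_le hl (by norm_num)).trans hln
  unfold r1 timeOf
  have := one_div_le_one_div_of_le hpos hD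
  linarith

lemma sc_pos {n : ℕ} (hn : 1 ≤ n) : 0 < sc n := by
  have : (0 : ℝ) < n := by exact_mod_cast hn
  unfold sc; positivity

/-- `|G_t|` is `cLim t * n^{3/2}` in mean, `t` time units after the second phase. -/
lemma card_limit {C : ℝ} (h2 : ∀ ε : ℝ, 0 < ε → ∃ N : ℕ, ∀ n ≥ N,
      ∃ μ : Gr n → ℝ, MidData C ε n μ)
    (hcav : CavExistsStmt) (hloc : LocalLimitStmt) (hlim : CavLimitStmt) {t : ℝ} (ht : 0 < t)
    {ε : ℝ} (hε : 0 < ε) : ∀ᶠ n : ℕ in atTop,
      expAt (r1 n + t) (fun H => |(H.card : ℝ) - cLim t * sc n|) (complete n) ≤ ε * sc n := by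
  obtain ⟨δ, hδ, Nl, hNl⟩ := hlim t C (ε / 4) ht (by positivity)
  obtain ⟨Nc, hNc⟩ := hloc t C (ε / 4) ht (by positivity)
  obtain ⟨N2, hN2⟩ := h2 (min δ 1) (lt_min hδ one_pos)
  have hgrow : Tendsto (fun n : ℕ => (n : ℝ) * (ε / 2)) atTop atTop :=
    tendsto_natCast_atTop_atTop.atTop_mul_const (by positivity)
  filter_upwards [eventually_ge_atTop (max (max Nl Nc) (max N2 3)),
    hgrow.eventually_ge_atTop (1 + |cLim t|)] with n hn hbig
  simp only [max_le_iff] at hn
  obtain ⟨⟨hnl, hnc⟩, hn2, hn3⟩ := hn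
  obtain ⟨μ, hμ⟩ := hN2 n hn2
  have hA := hNc n hnc μ (midData_mono hμ (min_le_right _ _))
  have hB := hNl n hnl μ (midData_mono hμ (min_le_left _ _))
  choose J hJ using hcav n
  specialize hA J hJ
  specialize hB J hJ
  set f : Gr n → ℝ := fun H => |(H.card : ℝ) - cLim t * sc n| with hf
  obtain ⟨⟨hμ0, -, hμc⟩, -⟩ := hμ
  have hn1 : (1 : ℝ) ≤ n := by exact_mod_cast (le_trans (by norm_num) hn3)
  have hsc : 0 < sc n := sc_pos (le_trans (by norm_num) hn3)
  set B : ℝ := (1 + |cLim t|) * (n : ℝ) ^ 2 with hBdef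
  have hBpos : 0 < B := by positivity
  set g : Gr n → ℝ := fun H => expAt t (fun K => min (f K) B) H / B with hg
  have hg01 : ∀ H, 0 ≤ g H ∧ g H ≤ 1 := fun H => by
    have hb : ∀ K, |min (f K) B| ≤ B := fun K => by
      rw [abs_of_nonneg (le_min (abs_nonneg _) hBpos.le)]; exact min_le_right _ _
    refine ⟨div_nonneg (semi_nonneg _ ht.le (fun K => le_min (abs_nonneg _) hBpos.le) H) hBpos.le,
      (div_le_one hBpos).2 ((abs_le.1 (semi_abs_le _ ht.le hb H)).2)⟩
  have hsub : ∀ H : Gr n, H ⊆ complete n → f H ≤ B := by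
    intro H hH
    have h1 : (H.card : ℝ) ≤ (n : ℝ) ^ 2 := by
      have h2 : H.card ≤ n.choose 2 := by
        simpa [complete, Finset.card_powersetCard] using Finset.card_le_card hH
      have h3 : n.choose 2 ≤ n ^ 2 := Nat.choose_le_pow _ _
      exact_mod_cast h2.trans h3
    have h4 : sc n ≤ (n : ℝ) ^ 2 := by
      have : Real.sqrt n ≤ n := Real.sqrt_le_iff.2 ⟨by linarith, by nlinarith⟩
      rw [sc, sq]
      exact mul_le_mul_of_nonneg_left this (by linarith)
    calc f H ≤ |(H.card : ℝ)| + |cLim t * sc n| := abs_sub _ _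
      _ ≤ B := by
        rw [abs_mul, abs_of_nonneg hsc.le, abs_of_nonneg (Nat.cast_nonneg _), hBdef]
        nlinarith [abs_nonneg (cLim t)]
  have hsplit : expAt (r1 n + t) f (complete n) = B * expAt (r1 n) g (complete n) := by
    have h1 : expAt (r1 n + t) f (complete n) =
        expAt (r1 n + t) (fun K => min (f K) B) (complete n) :=
      semi_congr _ {H | H ⊆ complete n}
        (fun E H hH => by
          simp only [Set.mem_ofPred_eq, rstep] at hH ⊢
          split
          · exact (rem_subset H E).trans hH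
          · exact hH) _ (fun H hH => (min_eq_left (hsub H hH)).symm) (Finset.Subset.refl (complete n))
    have h2 : g = B⁻¹ • semi (rstep (n := n)) t (fun K => min (f K) B) := by
      funext H
      simp [hg, expAt, div_eq_inv_mul]
    rw [h1, h2]
    simp only [expAt, semi_add_apply, map_smul, Pi.smul_apply, smul_eq_mul]
    rw [← mul_assoc, mul_inv_cancel₀ hBpos.ne', one_mul]
  have hmix : ∑ G, μ G * (B * g G) ≤
      ∑ G, μ G * expAt t (fun H => |(H.card : ℝ) - cavTot G (J G) t|) G +
      ∑ G, μ G * |cavTot G (J G) t - cLim t * sc n| := by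
    rw [← Finset.sum_add_distrib]
    refine Finset.sum_le_sum fun G _ => ?_
    rw [← mul_add]
    refine mul_le_mul_of_nonneg_left ?_ (hμ0 G)
    have h1 : B * g G = expAt t (fun K => min (f K) B) G := by
      simp only [hg]
      field_simp
    rw [h1]
    refine (semi_mono _ ht.le (g := (fun H : Gr n => |(H.card : ℝ) - cavTot G (J G) t|) +
      fun _ => |cavTot G (J G) t - cLim t * sc n|)
      (fun K => (min_le_left _ _).trans (abs_sub_le _ _ _)) G).trans (le_of_eq ?_)
    rw [map_add, Pi.add_apply, semi_const]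
    rfl
  have hmix2 : ∑ G, μ G * (B * g G) ≤ ε / 2 * sc n := by
    refine hmix.trans ?_
    have hA' : ∑ G, μ G * expAt t (fun H => |(H.card : ℝ) - cavTot G (J G) t|) G ≤
        ε / 4 * sc n := hA
    have hB' : ∑ G, μ G * |cavTot G (J G) t - cLim t * sc n| ≤ ε / 4 * sc n := hB
    linarith
  have hμg : B * expAt (r1 n) g (complete n) ≤ (∑ G, μ G * (B * g G)) + B / (n : ℝ) ^ 8 := by
    have h1 := (abs_le.1 (hμc g hg01)).1
    have h2 : ∑ G, μ G * (B * g G) = B * ∑ G, μ G * g G := by
      rw [Finset.mul_sum]; exact Finset.sum_congr rfl fun G _ => by ring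
    rw [h2, div_eq_mul_one_div]
    nlinarith
  have herr : B / (n : ℝ) ^ 8 ≤ ε / 2 * sc n := by
    have hs1 : 1 ≤ Real.sqrt n := Real.one_le_sqrt.2 hn1
    have h1 : B / (n : ℝ) ^ 8 ≤ 1 + |cLim t| := by
      rw [div_le_iff₀ (by positivity), hBdef]
      exact mul_le_mul_of_nonneg_left (pow_le_pow_right₀ hn1 (by norm_num)) (by positivity)
    have h2 : (n : ℝ) * (ε / 2) ≤ ε / 2 * sc n := by
      rw [sc, mul_comm (n : ℝ)]
      exact mul_le_mul_of_nonneg_left (by nlinarith) (by linarith)
    linarith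
  rw [hsplit]
  linarith

lemma cLim_tendsto : Tendsto cLim atTop (𝓝 (1 / (2 * Real.sqrt 2))) := by
  have h : Tendsto (fun t : ℝ => 1 - Real.exp (-t)) atTop (𝓝 (1 - 0)) :=
    tendsto_const_nhds.sub Real.tendsto_exp_neg_atTop_nhds_zero
  have h2 : Tendsto (fun t : ℝ => 2 * Real.sqrt (2 * (1 - Real.exp (-t)))) atTop
      (𝓝 (2 * Real.sqrt (2 * (1 - 0)))) :=
    tendsto_const_nhds.mul ((Real.continuous_sqrt.tendsto _).comp (tendsto_const_nhds.mul h))
  have h3 : Tendsto (fun t : ℝ => 1 / (2 * Real.sqrt (2 * (1 - Real.exp (-t))))) atTop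
      (𝓝 (1 / (2 * Real.sqrt (2 * (1 - 0))))) :=
    tendsto_const_nhds.div h2 (by simp)
  rw [sub_zero, mul_one] at h3
  exact h3

/-- Shortly, after a long constant time the triangles are negligible. -/
lemma late {C : ℝ} (h2 : ∀ ε : ℝ, 0 < ε → ∃ N : ℕ, ∀ n ≥ N,
      ∃ μ : Gr n → ℝ, MidData C ε n μ)
    (hcav : CavExistsStmt) (hloc : LocalLimitStmt) (hlim : CavLimitStmt) {ε : ℝ} (hε : 0 < ε) :
    ∃ t : ℝ, 0 < t ∧ |cLim t - 1 / (2 * Real.sqrt 2)| ≤ ε ∧ ∀ᶠ n : ℕ in atTop,
      expAt (r1 n + t) (fun H => |(H.card : ℝ) - cLim t * sc n|) (complete n) ≤ ε * sc n ∧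
      3 * expAt (r1 n + t) (fun H => ((tri H).card : ℝ)) (complete n) ≤ ε * sc n := by
  have hc2 : Tendsto (fun t : ℝ => cLim (t / 2) - cLim t) atTop
      (𝓝 (1 / (2 * Real.sqrt 2) - 1 / (2 * Real.sqrt 2))) :=
    (cLim_tendsto.comp (tendsto_id.atTop_div_const two_pos)).sub cLim_tendsto
  rw [sub_self] at hc2
  obtain ⟨t, ⟨ht2, hd1⟩, hd2⟩ :=
    (((eventually_ge_atTop (2 : ℝ)).and (hc2.eventually (ge_mem_nhds
      (show (0 : ℝ) < ε / 2 by linarith)))).and
      ((tendsto_iff_norm_sub_tendsto_zero.1 cLim_tendsto).eventually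
        (ge_mem_nhds hε))).exists
  refine ⟨t, by linarith, by simpa using hd2, ?_⟩
  have ht : 0 < t := by linarith
  filter_upwards [card_limit h2 hcav hloc hlim ht hε,
    card_limit h2 hcav hloc hlim ht (show 0 < ε / 4 by positivity),
    card_limit h2 hcav hloc hlim (show 0 < t / 2 by positivity) (show 0 < ε / 4 by positivity),
    eventually_ge_atTop 3] with n hA hB hC hn
  refine ⟨hA, ?_⟩
  have hr := r1_nonneg hn
  have hsc := sc_pos (le_trans (by norm_num) hn)
  set m : ℝ → ℝ := fun u => expAt u (fun H : Gr n => (H.card : ℝ)) (complete n) with hm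
  set T : ℝ → ℝ := fun u => expAt u (fun H : Gr n => ((tri H).card : ℝ)) (complete n) with hT
  have hmean : ∀ (u c : ℝ), 0 ≤ u → ∀ d, expAt u (fun H : Gr n => |(H.card : ℝ) - c|)
      (complete n) ≤ d → |m u - c| ≤ d := by
    intro u c hu d hd
    refine le_trans ?_ hd
    rw [abs_le]
    have h1 := semi_mono (rstep (n := n)) hu (f := fun H => (H.card : ℝ) - c)
      (g := fun H => |(H.card : ℝ) - c|) (fun H => le_abs_self _) (complete n)
    have h3 := semi_mono (rstep (n := n)) hu (f := -fun H => (H.card : ℝ) - c)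
      (g := fun H => |(H.card : ℝ) - c|) (fun H => neg_le_abs _) (complete n)
    have h5 : semi (rstep (n := n)) u (fun H => (H.card : ℝ) - c) (complete n) = m u - c := by
      have h6 : (fun H : Gr n => (H.card : ℝ) - c) = (fun H => (H.card : ℝ)) - fun _ => c := rfl
      rw [h6, map_sub, Pi.sub_apply, semi_const]
      rfl
    rw [map_neg, Pi.neg_apply, h5] at h3
    rw [h5] at h1
    constructor <;> simp only [expAt] <;> linarith
  have h1 := hmean _ _ (by linarith) _ hB
  have h2' := hmean _ _ (by linarith) _ hC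
  have hanti : AntitoneOn (fun u => m u + 3 * T (r1 n + t) * u)
      (Set.Icc (r1 n + t / 2) (r1 n + t)) := by
    refine antitoneOn_of_hasDerivWithinAt_nonpos (f' := fun u => -3 * T u + 3 * T (r1 n + t))
      (convex_Icc _ _) ?_ ?_ ?_
    · exact fun u _ => ((card_deriv _ u).add ((hasDerivAt_id u).const_mul _)).continuousAt.continuousWithinAt
    · intro u _
      have h7 := (card_deriv (complete n) u).fun_add ((hasDerivAt_id u).const_mul (3 * T (r1 n + t)))
      simpa [hm, hT] using h7.hasDerivWithinAt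
    · intro u hu
      have hu' := interior_subset hu
      have := tri_antitone (complete n) (a := u) (by linarith [hu'.1]) hu'.2
      linarith
  have h8 := hanti (Set.left_mem_Icc.2 (by linarith)) (Set.right_mem_Icc.2 (by linarith))
    (by linarith)
  simp only at h8
  rw [abs_le] at h1 h2'
  have hTnn : 0 ≤ T (r1 n + t) :=
    semi_nonneg _ (by linarith) (fun H => Nat.cast_nonneg _) _
  have hdc : (cLim (t / 2) - cLim t) * sc n ≤ ε / 2 * sc n :=
    mul_le_mul_of_nonneg_right hd1 hsc.le
  nlinarith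

theorem main_of (hone : PhaseOneStmt) (htwo : PhaseTwoStmt) (hcav : CavExistsStmt)
    (hloc : LocalLimitStmt) (hlim : CavLimitStmt) : MainStmt := by
  obtain ⟨C, h2⟩ := htwo hone
  set c₀ : ℝ := 1 / (2 * Real.sqrt 2) with hc₀
  constructor
  · rw [Metric.tendsto_atTop]
    intro ε hε
    obtain ⟨t, ht, hct, hev⟩ := late h2 hcav hloc hlim (show 0 < ε / 4 by positivity)
    obtain ⟨N, hN⟩ := eventually_atTop.1 hev
    refine ⟨max N 3, fun n hn => ?_⟩
    obtain ⟨hA, hT⟩ := hN n (le_trans (le_max_left _ _) hn)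
    have hn3 : 3 ≤ n := le_trans (le_max_right _ _) hn
    have hr := r1_nonneg hn3
    have hsc := sc_pos (le_trans (by norm_num) hn3)
    have hu : 0 ≤ r1 n + t := by linarith
    obtain ⟨hlo, hhi⟩ := sandwich n (fun e => (e : ℝ)) (r1 n + t) hu Nat.mono_cast (complete n)
    have hup : expAt (r1 n + t) (fun H => (H.card : ℝ)) (complete n) ≤
        cLim t * sc n + ε / 4 * sc n := by
      refine (semi_mono _ hu (g := (fun _ => cLim t * sc n) +
        fun H : Gr n => |(H.card : ℝ) - cLim t * sc n|)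
        (fun H => by simp only [Pi.add_apply]; linarith [le_abs_self ((H.card : ℝ) - cLim t * sc n)])
        _).trans ?_
      rw [map_add, Pi.add_apply, semi_const]
      exact add_le_add le_rfl hA
    have hlow : cLim t * sc n - ε / 2 * sc n ≤
        expAt (r1 n + t) (fun H => ((H.card - 3 * (tri H).card : ℕ) : ℝ)) (complete n) := by
      refine le_trans ?_ (semi_mono _ hu (f := (fun _ : Gr n => cLim t * sc n) -
        (fun H => |(H.card : ℝ) - cLim t * sc n|) - (3 : ℝ) • fun H => ((tri H).card : ℝ))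
        (fun H => ?_) _)
      · simp only [map_sub, map_smul, Pi.sub_apply, Pi.smul_apply, smul_eq_mul, semi_const]
        simp only [expAt] at hA hT
        linarith
      · simp only [Pi.sub_apply, Pi.smul_apply, smul_eq_mul]
        have h1 : (H.card : ℝ) ≤ ((H.card - 3 * (tri H).card : ℕ) : ℝ) + 3 * (tri H).card := by
          exact_mod_cast Nat.le_add_of_sub_le le_rfl
        linarith [neg_abs_le ((H.card : ℝ) - cLim t * sc n)]
    rw [Real.dist_eq, ← sc, abs_lt]
    rw [abs_le] at hct
    have hE1 := hhi.trans hup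
    have hE2 := hlow.trans hlo
    constructor
    · rw [lt_sub_iff_add_lt, lt_div_iff₀ hsc]; nlinarith
    · rw [sub_lt_iff_lt_add', div_lt_iff₀ hsc]; nlinarith
  · intro ε₀ hε₀
    rw [Metric.tendsto_atTop]
    intro ε hε
    set d := min (ε * ε₀ / 16) (ε₀ / 4) with hd
    have hdpos : 0 < d := by positivity
    obtain ⟨t, ht, hct, hev⟩ := late h2 hcav hloc hlim hdpos
    obtain ⟨N, hN⟩ := eventually_atTop.1 hev
    refine ⟨max N 3, fun n hn => ?_⟩
    obtain ⟨hA, hT⟩ := hN n (le_trans (le_max_left _ _) hn)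
    have hn3 : 3 ≤ n := le_trans (le_max_right _ _) hn
    have hr := r1_nonneg hn3
    have hsc := sc_pos (le_trans (by norm_num) hn3)
    have hu : 0 ≤ r1 n + t := by linarith
    have hd4 : d ≤ ε₀ / 4 := min_le_right _ _
    rw [abs_le] at hct
    set φ : ℕ → ℝ := fun e => if (c₀ + ε₀) * sc n < (e : ℝ) then 1 else 0 with hφ
    set ψ : ℕ → ℝ := fun e => if (c₀ - ε₀) * sc n ≤ (e : ℝ) then 1 else 0 with hψ
    have hφm : Monotone φ := fun a b hab => by
      have : (a : ℝ) ≤ b := by exact_mod_cast hab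
      simp only [hφ]; split_ifs <;> linarith
    have hψm : Monotone ψ := fun a b hab => by
      have : (a : ℝ) ≤ b := by exact_mod_cast hab
      simp only [hψ]; split_ifs <;> linarith
    have hk : 0 < ε₀ / 2 * sc n := by positivity
    have hφb : expectFinal φ (complete n) ≤ d * sc n / (ε₀ / 2 * sc n) := by
      refine ((sandwich n φ _ hu hφm (complete n)).2.trans (semi_mono _ hu
        (g := (ε₀ / 2 * sc n)⁻¹ • fun H : Gr n => |(H.card : ℝ) - cLim t * sc n|)
        (fun H => ?_) _)).trans ?_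
      · simp only [hφ, Pi.smul_apply, smul_eq_mul]
        split_ifs with hc
        · rw [inv_mul_eq_div, one_le_div hk]
          refine le_trans ?_ (le_abs_self _)
          nlinarith
        · positivity
      · rw [map_smul, Pi.smul_apply, smul_eq_mul, inv_mul_eq_div]
        exact div_le_div_of_nonneg_right hA hk.le
    have hψb : 1 - expectFinal ψ (complete n) ≤ 2 * d * sc n / (ε₀ / 2 * sc n) := by
      have h1 := (sandwich n ψ _ hu hψm (complete n)).1
      have h2 : 1 - 2 * d * sc n / (ε₀ / 2 * sc n) ≤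
          expAt (r1 n + t) (fun H => ψ (H.card - 3 * (tri H).card)) (complete n) := by
        refine le_trans ?_ (semi_mono _ hu (f := (fun _ : Gr n => (1 : ℝ)) -
          (ε₀ / 2 * sc n)⁻¹ • ((fun H : Gr n => |(H.card : ℝ) - cLim t * sc n|) +
            (3 : ℝ) • fun H => ((tri H).card : ℝ))) (fun H => ?_) _)
        · simp only [map_sub, map_add, map_smul, Pi.sub_apply, Pi.add_apply, Pi.smul_apply,
            smul_eq_mul, semi_const]
          simp only [expAt] at hA hT
          rw [inv_mul_eq_div]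
          exact sub_le_sub_left (div_le_div_of_nonneg_right (by linarith) hk.le) _
        · simp only [hψ, Pi.sub_apply, Pi.smul_apply, Pi.add_apply, smul_eq_mul]
          split_ifs with hc
          · have : 0 ≤ (ε₀ / 2 * sc n)⁻¹ *
              (|(H.card : ℝ) - cLim t * sc n| + 3 * ((tri H).card : ℝ)) := by positivity
            linarith
          · rw [sub_nonpos, inv_mul_eq_div, one_le_div hk]
            push Not at hc
            have h3 : (H.card : ℝ) ≤ ((H.card - 3 * (tri H).card : ℕ) : ℝ) + 3 * (tri H).card := by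
              exact_mod_cast Nat.le_add_of_sub_le le_rfl
            have := neg_abs_le ((H.card : ℝ) - cLim t * sc n)
            nlinarith
      linarith
    set p : ℕ → ℝ := fun e => if ε₀ < |(e : ℝ) / sc n - c₀| then 1 else 0 with hp
    have hple : expectFinal p (complete n) ≤
        expectFinal φ (complete n) + (1 - expectFinal ψ (complete n)) := by
      have h3 : expectFinal (fun e => φ e + ((-1) * ψ e + 1)) (complete n) =
          expectFinal φ (complete n) + (1 - expectFinal ψ (complete n)) := by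
        rw [final_add, final_affine]; ring
      rw [← h3]
      refine final_mono (fun e => ?_) _
      simp only [hp, hφ, hψ]
      by_cases hc : ε₀ < |(e : ℝ) / sc n - c₀|
      · rw [if_pos hc]
        rcases lt_abs.1 hc with h | h
        · rw [lt_sub_iff_add_lt, lt_div_iff₀ hsc] at h
          rw [if_pos (by linarith)]
          split_ifs <;> norm_num
        · rw [neg_sub, lt_sub_comm, div_lt_iff₀ hsc] at h
          rw [if_neg (c := (c₀ - ε₀) * sc n ≤ (e : ℝ)) (not_le.2 h)]
          split_ifs <;> norm_num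
      · rw [if_neg hc]
        split_ifs <;> norm_num
    have hp0 : 0 ≤ expectFinal p (complete n) := by
      have h4 := final_affine p 0 0 (complete n)
      have h5 := final_mono (φ := fun e => 0 * p e + 0) (ψ := p)
        (fun e => by simp only [hp]; split_ifs <;> norm_num) (complete n)
      rw [h4] at h5
      linarith
    change dist (expectFinal p (complete n)) 0 < ε
    rw [Real.dist_eq, sub_zero, abs_of_nonneg hp0]
    have hd16 : d ≤ ε * ε₀ / 16 := min_le_left _ _
    have h6 : d * sc n / (ε₀ / 2 * sc n) ≤ ε / 8 := by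
      rw [div_le_iff₀ hk]; nlinarith
    have h7 : 2 * d * sc n / (ε₀ / 2 * sc n) ≤ ε / 4 := by
      rw [div_le_iff₀ hk]; nlinarith
    linarith

end Vale.Agent.P046.Full
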