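import Vale.Agent.P046.Full.Semi

/-!
P046, the exact constant: the final edge count lies between `|G_t| - 3 T_t` and `|G_t|` for every
time `t`, and the triangle count does not increase.
-/

namespace Vale.Agent.P046.Full

open Finset
open Vale.Agent.P046

variable {n : ℕ}

lemma final_mono {φ ψ : ℕ → ℝ} (h : ∀ e, φ e ≤ ψ e) (G : Gr n) :
    expectFinal φ G ≤ expectFinal ψ G := by
  induction G using Finset.strongInduction with
  | H G ih =>
    by_cases hT : tri G = ∅
    · rw [expectFinal_stop φ hT, expectFinal_stop ψ hT]; exact h _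
    · rw [expectFinal_step φ hT, expectFinal_step ψ hT]
      refine div_le_div_of_nonneg_right (Finset.sum_le_sum fun D hD => ?_) (Nat.cast_nonneg _)
      exact ih _ ((Finset.ssubset_iff_subset_ne).2
        ⟨rem_subset G D, fun he => (card_rem_lt hD).ne (by rw [he])⟩)

lemma final_affine (φ : ℕ → ℝ) (a b : ℝ) (G : Gr n) :
    expectFinal (fun e => a * φ e + b) G = a * expectFinal φ G + b := by
  induction G using Finset.strongInduction with
  | H G ih =>
    by_cases hT : tri G = ∅
    · rw [expectFinal_stop _ hT, expectFinal_stop φ hT]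
    · rw [expectFinal_step _ hT, expectFinal_step φ hT]
      have hne : ((tri G).card : ℝ) ≠ 0 := by
        simpa [Finset.card_eq_zero] using hT
      rw [Finset.sum_congr rfl fun D hD => ih _ ((Finset.ssubset_iff_subset_ne).2
        ⟨rem_subset G D, fun he => (card_rem_lt hD).ne (by rw [he])⟩)]
      rw [Finset.sum_add_distrib, ← Finset.mul_sum, Finset.sum_const, nsmul_eq_mul]
      field_simp

lemma gen_rstep (f : Gr n → ℝ) (G : Gr n) :
    gen (rstep (n := n)) f G = ∑ D ∈ tri G, (f (rem G D) - f G) := by
  rw [gen_apply, ← Finset.sum_subset (Finset.subset_univ (tri G))]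
  · exact Finset.sum_congr rfl fun D hD => by simp [rstep, hD]
  · intro D _ hD; simp [rstep, hD]

lemma gen_final (φ : ℕ → ℝ) : gen (rstep (n := n)) (expectFinal φ) = 0 := by
  funext G
  rw [gen_rstep, Finset.sum_sub_distrib, Finset.sum_const, nsmul_eq_mul, Pi.zero_apply]
  by_cases hT : tri G = ∅
  · simp [hT]
  · rw [expectFinal_step φ hT]
    have hne : ((tri G).card : ℝ) ≠ 0 := by
      simpa [Finset.card_eq_zero] using hT
    field_simp
    ring

lemma tri_rem_card_lt {G : Gr n} {D : Finset (Fin n)} (hD : D ∈ tri G) :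
    (tri (rem G D)).card < (tri G).card := by
  have h1 := card_tri_rem hD
  have h2 : 3 ≤ sdeg G D := by
    have h3 := card_sides (mem_tri.1 hD).1
    have h4 : ∑ _g ∈ sides D, 1 ≤ sdeg G D := Finset.sum_le_sum fun g hg => deg_pos hD hg
    rw [Finset.sum_const, h3] at h4
    simpa using h4
  omega

lemma final_le (φ : ℕ → ℝ) (hφ : Monotone φ) (G : Gr n) : expectFinal φ G ≤ φ G.card := by
  induction G using Finset.strongInduction with
  | H G ih =>
    by_cases hT : tri G = ∅
    · rw [expectFinal_stop φ hT]
    · rw [expectFinal_step φ hT]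
      have hpos : (0 : ℝ) < (tri G).card := by
        exact_mod_cast Finset.card_pos.2 (Finset.nonempty_iff_ne_empty.2 hT)
      rw [div_le_iff₀ hpos, mul_comm]
      refine (Finset.sum_le_card_nsmul _ _ _ fun D hD => ?_).trans (le_of_eq (nsmul_eq_mul _ _))
      exact (ih _ ((Finset.ssubset_iff_subset_ne).2
        ⟨rem_subset G D, fun he => (card_rem_lt hD).ne (by rw [he])⟩)).trans
        (hφ (card_rem_lt hD).le)

lemma le_final (φ : ℕ → ℝ) (hφ : Monotone φ) (G : Gr n) :
    φ (G.card - 3 * (tri G).card) ≤ expectFinal φ G := by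
  induction G using Finset.strongInduction with
  | H G ih =>
    by_cases hT : tri G = ∅
    · rw [expectFinal_stop φ hT]; simp [hT]
    · rw [expectFinal_step φ hT]
      have hpos : (0 : ℝ) < (tri G).card := by
        exact_mod_cast Finset.card_pos.2 (Finset.nonempty_iff_ne_empty.2 hT)
      rw [le_div_iff₀ hpos, mul_comm, ← nsmul_eq_mul]
      refine Finset.card_nsmul_le_sum _ _ _ fun D hD => ?_
      refine le_trans (hφ ?_) (ih _ ((Finset.ssubset_iff_subset_ne).2
        ⟨rem_subset G D, fun he => (card_rem_lt hD).ne (by rw [he])⟩))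
      have h1 := card_rem hD
      have h2 := tri_rem_card_lt hD
      omega

theorem sandwich : SandwichStmt := by
  intro n φ t ht hφ G
  have h := congrFun (semi_of_gen_eq_zero (rstep (n := n)) t (gen_final φ)) G
  constructor
  · calc expAt t (fun H => φ (H.card - 3 * (tri H).card)) G
        ≤ expAt t (expectFinal φ) G := semi_mono _ ht (le_final φ hφ) G
      _ = expectFinal φ G := h
  · calc expectFinal φ G = expAt t (expectFinal φ) G := h.symm
      _ ≤ expAt t (fun H => φ H.card) G := semi_mono _ ht (final_le φ hφ) G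

/-- The expected edge count decreases at three times the expected triangle count, which decreases. -/
lemma card_deriv (G : Gr n) (t : ℝ) :
    HasDerivAt (fun u => expAt u (fun H => (H.card : ℝ)) G)
      (-3 * expAt t (fun H => ((tri H).card : ℝ)) G) t := by
  have h := semi_apply_hasDerivAt (rstep (n := n)) (fun H => (H.card : ℝ)) G t
  have hg : gen (rstep (n := n)) (fun H => (H.card : ℝ)) =
      (-3 : ℝ) • fun H => ((tri H).card : ℝ) := by
    funext H
    rw [gen_rstep, Finset.sum_congr rfl (g := fun _ => (-3 : ℝ)) fun D hD => ?_,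
      Finset.sum_const, nsmul_eq_mul, Pi.smul_apply, smul_eq_mul, mul_comm]
    have h1 := card_rem hD
    have h2 : ((rem H D).card : ℝ) + 3 = H.card := by exact_mod_cast h1
    linarith
  refine h.congr_deriv ?_
  rw [hg, map_smul]
  rfl

lemma tri_antitone (G : Gr n) {a b : ℝ} (ha : 0 ≤ a) (hab : a ≤ b) :
    expAt b (fun H => ((tri H).card : ℝ)) G ≤ expAt a (fun H => ((tri H).card : ℝ)) G := by
  obtain ⟨c, hc, rfl⟩ : ∃ c, 0 ≤ c ∧ b = a + c := ⟨b - a, sub_nonneg.2 hab, by ring⟩
  unfold expAt
  rw [semi_add_apply]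
  refine semi_mono _ ha (fun H => ?_) G
  have := semi_le_of_drift (rstep (n := n)) hc (fun _ K => ((tri K).card : ℝ)) (fun _ _ => 0)
    (fun s _ x => hasDerivWithinAt_const s _ _) (fun s _ K => ?_) H
  · simpa using this
  · rw [gen_rstep, zero_add]
    refine Finset.sum_nonpos fun D hD => ?_
    have h1 : ((tri (rem K D)).card : ℝ) ≤ (tri K).card := by
      exact_mod_cast (tri_rem_card_lt hD).le
    linarith

end Vale.Agent.P046.Full
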