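import Vale.Agent.P046.Full.Base

/-!
P046, the exact constant: basic facts on the semigroup of a finite rate one jump chain: positivity,
the comparison principle, transfer along intertwining maps, and the distance to one lazy step.
-/

namespace Vale.Agent.P046.Full

open Finset

variable {ι κ : Type*} [Fintype ι] [Fintype κ]

lemma gen_apply (step : κ → ι → ι) (f : ι → ℝ) (x : ι) :
    gen step f x = ∑ k, (f (step k x) - f x) := rfl

lemma semi_zero (step : κ → ι → ι) : semi step 0 = 1 := by
  simp [semi, NormedSpace.exp_zero]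

lemma semi_add (step : κ → ι → ι) (s t : ℝ) :
    semi step (s + t) = semi step s * semi step t := by
  rw [semi, semi, semi, add_smul]
  let : NormedAlgebra ℚ ((ι → ℝ) →L[ℝ] (ι → ℝ)) := .restrictScalars ℚ ℝ _
  refine NormedSpace.exp_add_of_commute ?_
  exact ((Commute.refl (gen step)).smul_left s).smul_right t

lemma semi_add_apply (step : κ → ι → ι) (s t : ℝ) (f : ι → ℝ) :
    semi step (s + t) f = semi step s (semi step t f) := by
  rw [semi_add]; rfl

lemma semi_commute_gen (step : κ → ι → ι) (t : ℝ) (f : ι → ℝ) :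
    semi step t (gen step f) = gen step (semi step t f) := by
  have h : Commute (semi step t) (gen step) :=
    ((Commute.refl (gen step)).smul_left t).exp_left
  exact DFunLike.congr_fun h.eq f

lemma semi_hasDerivAt (step : κ → ι → ι) (t : ℝ) :
    HasDerivAt (fun u => semi step u) (semi step t * gen step) t :=
  hasDerivAt_exp_smul_const (gen step) t

lemma semi_apply_hasDerivAt (step : κ → ι → ι) (f : ι → ℝ) (x : ι) (t : ℝ) :
    HasDerivAt (fun u => semi step u f x) (semi step t (gen step f) x) t := by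
  have h1 := ((ContinuousLinearMap.proj (R := ℝ) (φ := fun _ : ι => ℝ) x).comp
    (ContinuousLinearMap.apply ℝ (ι → ℝ) f)).hasFDerivAt.comp_hasDerivAt t (semi_hasDerivAt step t)
  exact h1

lemma gen_one (step : κ → ι → ι) : gen step (fun _ => (1 : ℝ)) = 0 := by
  funext x; simp [gen_apply]

/-- `semi` of a constant. -/
lemma semi_const (step : κ → ι → ι) (t : ℝ) (c : ℝ) :
    semi step t (fun _ => c) = fun _ => c := by
  have h0 : gen step (fun _ => c) = 0 := by funext x; simp [gen_apply]
  funext x
  have h : ∀ u, HasDerivAt (fun u => semi step u (fun _ => c) x) 0 u := by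
    intro u
    have := semi_apply_hasDerivAt step (fun _ => c) x u
    simpa [h0] using this
  have h2 := is_const_of_deriv_eq_zero (fun u => (h u).differentiableAt) (fun u => (h u).deriv) t 0
  rw [h2, semi_zero]; rfl

/-- The semigroup as a series with nonnegative terms, after factoring a decay. -/
lemma semi_eq_shift (step : κ → ι → ι) (t : ℝ) :
    semi step t = Real.exp (-(t * Fintype.card κ)) •
      NormedSpace.exp (t • (gen step + (Fintype.card κ : ℝ) • (1 : (ι → ℝ) →L[ℝ] (ι → ℝ)))) := by
  have hc : Commute (t • gen step) ((t * Fintype.card κ) • (1 : (ι → ℝ) →L[ℝ] (ι → ℝ))) :=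
    ((Commute.one_right (gen step)).smul_left t).smul_right _
  let : NormedAlgebra ℚ ((ι → ℝ) →L[ℝ] (ι → ℝ)) := .restrictScalars ℚ ℝ _
  rw [smul_add, smul_smul, NormedSpace.exp_add_of_commute hc]
  have he : NormedSpace.exp ((t * Fintype.card κ) • (1 : (ι → ℝ) →L[ℝ] (ι → ℝ)))
      = Real.exp (t * Fintype.card κ) • (1 : (ι → ℝ) →L[ℝ] (ι → ℝ)) := by
    rw [← Algebra.algebraMap_eq_smul_one, ← Algebra.algebraMap_eq_smul_one,
      ← NormedSpace.algebraMap_exp_comm, Real.exp_eq_exp_ℝ]
  rw [he, mul_smul_comm, mul_one, smul_smul, ← Real.exp_add]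
  simp [semi]

/-- An entrywise statement propagates from the powers of an operator to its exponential. -/
lemma exp_apply_nonneg (A : (ι → ℝ) →L[ℝ] (ι → ℝ)) (P : (ι → ℝ) → Prop)
    (hP : ∀ g, P g → P (A g)) (f : ι → ℝ) (hf : P f) (x : ι)
    (hx : ∀ g, P g → 0 ≤ g x) : 0 ≤ NormedSpace.exp A f x := by
  have hs := NormedSpace.exp_series_hasSum_exp' (𝕂 := ℝ) A
  have h1 := ((ContinuousLinearMap.proj (R := ℝ) (φ := fun _ : ι => ℝ) x).comp
    (ContinuousLinearMap.apply ℝ (ι → ℝ) f)).hasSum hs
  refine h1.nonneg fun j => ?_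
  have hp : ∀ j : ℕ, P ((A ^ j) f) := by
    intro j
    induction j with
    | zero => simpa using hf
    | succ j ih => rw [pow_succ']; exact hP _ ih
  simp only [ContinuousLinearMap.coe_comp, Function.comp_apply,
    ContinuousLinearMap.apply_apply, ContinuousLinearMap.proj_apply]
  have := hx _ (hp j)
  simp only [FunLike.coe_smul, Pi.smul_apply, smul_eq_mul]
  positivity

lemma semi_nonneg (step : κ → ι → ι) {t : ℝ} (ht : 0 ≤ t) {f : ι → ℝ} (hf : ∀ x, 0 ≤ f x)
    (x : ι) : 0 ≤ semi step t f x := by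
  rw [semi_eq_shift]
  simp only [FunLike.coe_smul, Pi.smul_apply, smul_eq_mul]
  refine mul_nonneg (Real.exp_pos _).le (exp_apply_nonneg _ (fun g => ∀ y, 0 ≤ g y) ?_ f hf x
    (fun g hg => hg x))
  intro g hg y
  simp only [smul_add, FunLike.coe_add, FunLike.coe_smul,
    one_apply_eq_self, Pi.add_apply, Pi.smul_apply, smul_eq_mul, gen_apply,
    Finset.sum_sub_distrib, Finset.sum_const, nsmul_eq_mul, Finset.card_univ]
  have h2 : 0 ≤ ∑ k, g (step k y) := Finset.sum_nonneg fun k _ => hg _
  nlinarith

lemma semi_mono (step : κ → ι → ι) {t : ℝ} (ht : 0 ≤ t) {f g : ι → ℝ} (h : ∀ x, f x ≤ g x)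
    (x : ι) : semi step t f x ≤ semi step t g x := by
  have h0 := semi_nonneg step ht (f := g - f) (fun y => by simpa using h y) x
  simpa [map_sub] using h0

lemma semi_abs_le (step : κ → ι → ι) {t : ℝ} (ht : 0 ≤ t) {f : ι → ℝ} {B : ℝ}
    (h : ∀ x, |f x| ≤ B) (x : ι) : |semi step t f x| ≤ B := by
  rw [abs_le]
  have h1 := semi_mono step ht (f := f) (g := fun _ => B) (fun y => (abs_le.1 (h y)).2) x
  have h2 := semi_mono step ht (f := fun _ => -B) (g := f) (fun y => (abs_le.1 (h y)).1) x
  rw [semi_const] at h1 h2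
  exact ⟨h2, h1⟩

/-- The comparison principle (Dynkin): a function with nonpositive space-time drift has
nonincreasing expectation. -/
lemma semi_le_of_drift (step : κ → ι → ι) {a b : ℝ} (hab : a ≤ b) (F F' : ℝ → ι → ℝ)
    (hd : ∀ s ∈ Set.Icc a b, ∀ x, HasDerivWithinAt (fun u => F u x) (F' s x) (Set.Icc a b) s)
    (hdr : ∀ s ∈ Set.Icc a b, ∀ x, F' s x + gen step (F s) x ≤ 0) (x : ι) :
    semi step (b - a) (F b) x ≤ F a x := by
  have hder : ∀ s ∈ Set.Icc a b, HasDerivWithinAt (fun u => semi step (u - a) (F u) x)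
      (semi step (s - a) (fun y => F' s y + gen step (F s) y) x) (Set.Icc a b) s := by
    intro s hs
    have hF : HasDerivWithinAt (fun u => F u) (fun y => F' s y) (Set.Icc a b) s :=
      hasDerivWithinAt_pi.2 fun y => hd s hs y
    have hS : HasDerivWithinAt (fun u => semi step (u - a)) (semi step (s - a) * gen step)
        (Set.Icc a b) s :=
      ((semi_hasDerivAt step (s - a)).comp_sub_const s a).hasDerivWithinAt
    have h := hS.clm_apply hF
    have h' := (ContinuousLinearMap.proj (R := ℝ) (φ := fun _ : ι => ℝ) x).hasFDerivAt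
      |>.comp_hasDerivWithinAt s h
    refine h'.congr_deriv ?_
    change (semi step (s - a) (gen step (F s)) + semi step (s - a) (fun y => F' s y)) x = _
    rw [← map_add, add_comm]
    rfl
  have hanti : AntitoneOn (fun u => semi step (u - a) (F u) x) (Set.Icc a b) := by
    refine antitoneOn_of_hasDerivWithinAt_nonpos (convex_Icc a b)
      (fun s hs => (hder s hs).continuousWithinAt)
      (fun s hs => (hder s (interior_subset hs)).mono interior_subset) ?_
    intro s hs
    have hs' : s ∈ Set.Icc a b := interior_subset hs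
    have h0 := semi_mono step (sub_nonneg.2 hs'.1) (g := fun _ => 0) (hdr s hs') x
    simpa [semi_const] using h0
  have h := hanti (Set.left_mem_Icc.2 hab) (Set.right_mem_Icc.2 hab) hab
  simpa [semi_zero] using h

/-- Intertwining maps of generators intertwine the semigroups. -/
lemma semi_intertwine {ι' κ' : Type*} [Fintype ι'] [Fintype κ'] (step : κ → ι → ι)
    (step' : κ' → ι' → ι') (C : (ι' → ℝ) →L[ℝ] (ι → ℝ))
    (h : ∀ f, gen step (C f) = C (gen step' f)) (t : ℝ) (f : ι' → ℝ) :
    semi step t (C f) = C (semi step' t f) := by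
  have hp : ∀ (j : ℕ) (g : ι' → ℝ), ((t • gen step) ^ j) (C g) = C (((t • gen step') ^ j) g) := by
    intro j
    induction j with
    | zero => simp
    | succ j ih =>
      intro g
      rw [pow_succ, pow_succ]
      change ((t • gen step) ^ j) ((t • gen step) (C g)) =
        C (((t • gen step') ^ j) ((t • gen step') g))
      rw [← ih]
      congr 1
      simp [h]
  have h1 := (ContinuousLinearMap.apply ℝ (ι → ℝ) (C f)).hasSum
    (NormedSpace.exp_series_hasSum_exp' (𝕂 := ℝ) (t • gen step))
  have h2 := C.hasSum ((ContinuousLinearMap.apply ℝ (ι' → ℝ) f).hasSum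
    (NormedSpace.exp_series_hasSum_exp' (𝕂 := ℝ) (t • gen step')))
  have hfun : (fun j : ℕ => C ((ContinuousLinearMap.apply ℝ (ι' → ℝ) f)
      ((j.factorial⁻¹ : ℝ) • (t • gen step') ^ j))) =
      fun j : ℕ => (ContinuousLinearMap.apply ℝ (ι → ℝ) (C f))
      ((j.factorial⁻¹ : ℝ) • (t • gen step) ^ j) := by
    funext j
    simp [hp]
  exact h1.unique (hfun ▸ h2)

/-- A drift free function is preserved. -/
lemma semi_of_gen_eq_zero (step : κ → ι → ι) (t : ℝ) {f : ι → ℝ} (h : gen step f = 0) :
    semi step t f = f := by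
  funext x
  have hd : ∀ u, HasDerivAt (fun u => semi step u f x) 0 u := fun u => by
    simpa [h] using semi_apply_hasDerivAt step f x u
  rw [is_const_of_deriv_eq_zero (fun u => (hd u).differentiableAt) (fun u => (hd u).deriv) t 0,
    semi_zero]
  rfl

lemma gen_abs_le (step : κ → ι → ι) {f : ι → ℝ} {B : ℝ} (h : ∀ x, |f x| ≤ B) (x : ι) :
    |gen step f x| ≤ 2 * Fintype.card κ * B := by
  rw [gen_apply]
  refine (Finset.abs_sum_le_sum_abs _ _).trans ?_
  refine (Finset.sum_le_sum (g := fun _ => 2 * B) fun k _ => ?_).trans (le_of_eq ?_)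
  · exact (abs_sub _ _).trans (by linarith [h (step k x), h x])
  · simp; ring

/-- One lazy step against the semigroup. -/
lemma semi_sub_lazy (step : κ → ι → ι) {h : ℝ} (hh : 0 ≤ h) {f : ι → ℝ} {B : ℝ}
    (hB : ∀ x, |f x| ≤ B) (x : ι) :
    |semi step h f x - (f x + h * gen step f x)| ≤ 4 * (Fintype.card κ : ℝ) ^ 2 * B * h ^ 2 := by
  set c : ℝ := 4 * (Fintype.card κ : ℝ) ^ 2 * B with hc
  have hgg : ∀ y, |gen step (gen step f) y| ≤ c := fun y =>
    (gen_abs_le step (gen_abs_le step hB) y).trans (le_of_eq (by rw [hc]; ring))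
  have h1 : ∀ u ∈ Set.Icc 0 h, |semi step u (gen step f) x - gen step f x| ≤ c * u := by
    intro u hu
    have hd : ∀ v ∈ Set.Icc 0 u, HasDerivWithinAt (fun v => semi step v (gen step f) x)
        (semi step v (gen step (gen step f)) x) (Set.Icc 0 u) v := fun v _ =>
      (semi_apply_hasDerivAt step (gen step f) x v).hasDerivWithinAt
    have := (convex_Icc (0 : ℝ) u).norm_image_sub_le_of_norm_hasDerivWithin_le hd
      (fun v hv => by simpa using semi_abs_le step hv.1 hgg x)
      (Set.left_mem_Icc.2 hu.1) (Set.right_mem_Icc.2 hu.1)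
    simpa [semi_zero, abs_of_nonneg hu.1] using this
  have hd2 : ∀ u ∈ Set.Icc 0 h, HasDerivWithinAt (fun u => semi step u f x - u * gen step f x)
      (semi step u (gen step f) x - gen step f x) (Set.Icc 0 h) u := fun u _ => by
    have h3 := (semi_apply_hasDerivAt step f x u).fun_sub
      ((hasDerivAt_id u).mul_const (gen step f x))
    simpa using h3.hasDerivWithinAt
  have hmain := (convex_Icc (0 : ℝ) h).norm_image_sub_le_of_norm_hasDerivWithin_le (C := c * h) hd2
    (fun u hu => by
      have hc0 : 0 ≤ c := (abs_nonneg _).trans (hgg x)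
      simpa using (h1 u hu).trans (by nlinarith [hu.2]))
    (Set.left_mem_Icc.2 hh) (Set.right_mem_Icc.2 hh)
  simp only [semi_zero, Real.norm_eq_abs, sub_zero, zero_mul, abs_of_nonneg hh] at hmain
  calc |semi step h f x - (f x + h * gen step f x)|
      = |semi step h f x - h * gen step f x - f x| := by congr 1; ring
    _ ≤ c * h * h := by simpa using hmain
    _ = 4 * (Fintype.card κ : ℝ) ^ 2 * B * h ^ 2 := by rw [hc]; ring

/-- The semigroup only sees the function on an invariant set containing the start. -/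
lemma semi_congr (step : κ → ι → ι) (S : Set ι) (hS : ∀ k, ∀ x ∈ S, step k x ∈ S) (t : ℝ)
    {f g : ι → ℝ} (h : ∀ x ∈ S, f x = g x) {x : ι} (hx : x ∈ S) :
    semi step t f x = semi step t g x := by
  have h1 := ((ContinuousLinearMap.proj (R := ℝ) (φ := fun _ : ι => ℝ) x).comp
    (ContinuousLinearMap.apply ℝ (ι → ℝ) (f - g))).hasSum
    (NormedSpace.exp_series_hasSum_exp' (𝕂 := ℝ) (t • gen step))
  have hz : ∀ (j : ℕ), ∀ y ∈ S, ((t • gen step) ^ j) (f - g) y = 0 := by
    intro j
    induction j with
    | zero => intro y hy; simp [h y hy]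
    | succ j ih =>
      intro y hy
      rw [pow_succ']
      change t * gen step (((t • gen step) ^ j) (f - g)) y = 0
      rw [gen_apply, Finset.sum_eq_zero fun k _ => ?_, mul_zero]
      rw [ih _ (hS k y hy), ih _ hy, sub_zero]
  have h0 : semi step t (f - g) x = 0 := by
    refine h1.unique ?_
    convert hasSum_zero (α := ℝ) (β := ℕ) using 1
    funext j
    change (j.factorial⁻¹ : ℝ) * ((t • gen step) ^ j) (f - g) x = 0
    rw [hz j x hx, mul_zero]
  rw [map_sub, Pi.sub_apply] at h0
  linarith

/-- Two chains with the same generator on an invariant set have the same semigroup there. -/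
lemma semi_congr_gen {κ' : Type*} [Fintype κ'] (step : κ → ι → ι) (step' : κ' → ι → ι) (S : Set ι)
    (hS : ∀ k, ∀ x ∈ S, step k x ∈ S)
    (h : ∀ (f : ι → ℝ), ∀ x ∈ S, gen step f x = gen step' f x) (t : ℝ) (f : ι → ℝ) {x : ι}
    (hx : x ∈ S) : semi step t f x = semi step' t f x := by
  have hp : ∀ (j : ℕ), ∀ y ∈ S,
      ((t • gen step) ^ j) f y = ((t • gen step') ^ j) f y := by
    intro j
    induction j with
    | zero => intro y _; rfl
    | succ j ih =>
      intro y hy
      rw [pow_succ', pow_succ']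
      change t * gen step (((t • gen step) ^ j) f) y =
        t * gen step' (((t • gen step') ^ j) f) y
      rw [← h _ y hy, gen_apply, gen_apply]
      congr 1
      refine Finset.sum_congr rfl fun k _ => ?_
      rw [ih _ (hS k y hy), ih _ hy]
  have h1 := ((ContinuousLinearMap.proj (R := ℝ) (φ := fun _ : ι => ℝ) x).comp
    (ContinuousLinearMap.apply ℝ (ι → ℝ) f)).hasSum
    (NormedSpace.exp_series_hasSum_exp' (𝕂 := ℝ) (t • gen step))
  have h2 := ((ContinuousLinearMap.proj (R := ℝ) (φ := fun _ : ι => ℝ) x).comp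
    (ContinuousLinearMap.apply ℝ (ι → ℝ) f)).hasSum
    (NormedSpace.exp_series_hasSum_exp' (𝕂 := ℝ) (t • gen step'))
  refine h1.unique (h2.congr_fun fun j => ?_)
  change (j.factorial⁻¹ : ℝ) * ((t • gen step) ^ j) f x =
    (j.factorial⁻¹ : ℝ) * ((t • gen step') ^ j) f x
  rw [hp j x hx]

end Vale.Agent.P046.Full
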