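import Vale.Agent.P046.Full.Semi

/-!
P046, the exact constant, late phase: removal on an arbitrary finite linear 3-uniform hypergraph,
the truncated (local) removal, and the statements of the three sub-modules of `LocalLimitStmt`.
-/

namespace Vale.Agent.P046.Full

open Finset

variable {V : Type} [Fintype V] [DecidableEq V]

/-- Every hyperedge has three points and two of them share at most one. -/
def Linear3 (T : Finset (Finset V)) : Prop :=
  (∀ F ∈ T, F.card = 3) ∧ ∀ F ∈ T, ∀ F' ∈ T, F ≠ F' → (F ∩ F').card ≤ 1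

/-- Ringing of `F`: it is removed if its three points are present. -/
def hstep (T : Finset (Finset V)) (F : T) (H : Finset V) : Finset V :=
  if (F : Finset V) ⊆ H then H \ (F : Finset V) else H

/-- The number of hyperedges at `a`. -/
def hdeg (T : Finset (Finset V)) (a : V) : ℕ := (T.filter (fun F => a ∈ F)).card

/-- The exponential moment of the degrees. -/
noncomputable def hmom (T : Finset (Finset V)) (U : Finset V) (θ : ℝ) : ℝ :=
  ∑ a ∈ U, Real.exp (θ * (hdeg T a : ℝ))

/-- Points and hyperedges within `R` steps of `a`. -/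
def hball (T : Finset (Finset V)) (a : V) : ℕ → Finset V × Finset (Finset V)
  | 0 => ({a}, ∅)
  | R + 1 =>
    let S := T.filter (fun F => ¬Disjoint F (hball T a R).1)
    ((hball T a R).1 ∪ S.biUnion id, S)

/-- The ball is a hypertree. -/
def htree (T : Finset (Finset V)) (R : ℕ) (a : V) : Prop :=
  (hball T a R).1.card = 2 * (hball T a R).2.card + 1

/-- A state of the truncated removal: the points present at the start of the stage, the points
present now, and the depth of each point's history within the stage. -/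
abbrev TState (V : Type) (K : ℕ) : Type := Finset V × Finset V × (V → Fin (K + 1))

/-- Ringing of `F` in the truncated removal. -/
def tstep (T : Finset (Finset V)) (K : ℕ) (F : T) (x : TState V K) : TState V K :=
  if (F : Finset V) ⊆ x.1 then
    (x.1, (if (F : Finset V) ⊆ x.2.1 then x.2.1 \ (F : Finset V) else x.2.1),
      fun a => if a ∈ (F : Finset V) then
        ⟨min K ((F : Finset V).sup (fun b => (x.2.2 b : ℕ)) + 1),
          Nat.lt_succ_of_le (min_le_left _ _)⟩
        else x.2.2 a)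
  else x

/-- The expectation of `f` of the points left by truncated removal: each stage `(Δ, k)` runs for
time `Δ`, then deletes the points whose history has depth at least `k`. -/
noncomputable def truncExp (T : Finset (Finset V)) :
    List (ℝ × ℕ) → (Finset V → ℝ) → Finset V → ℝ
  | [], f, H => f H
  | (Δ, k) :: rest, f, H =>
    semi (tstep T k) Δ (fun x => truncExp T rest f (x.2.1.filter (fun a => (x.2.2 a : ℕ) < k)))
      (H, H, fun _ => 0)

/-- The number of stages needed to pass from `a₀` to `a₀ + t`. -/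
noncomputable def stageCount (a₀ t : ℝ) : ℕ :=
  ⌈Real.log (1 + t / a₀) / Real.log (51 / 50)⌉₊

/-- The geometric schedule of stages: stage `i` starts at `a₀ (51/50)^i`, and its depth is
`⌈4 k₀ (50/51)^i⌉`. -/
noncomputable def sched (a₀ t k₀ : ℝ) : List (ℝ × ℕ) :=
  (List.range (stageCount a₀ t)).map fun i =>
    (min (a₀ * (51 / 50) ^ (i + 1)) (a₀ + t) - a₀ * (51 / 50) ^ i,
      ⌈4 * k₀ * (50 / 51 : ℝ) ^ i⌉₊)

/-- The total depth of a schedule. -/
def depth (s : List (ℝ × ℕ)) : ℕ := (s.map Prod.snd).sum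

/-- The product of the survival factors of `a` over its hyperedges other than `F`. -/
noncomputable def hz (T : Finset (Finset V)) (J : V → Finset V → ℝ → ℝ) (a : V) (F : Finset V)
    (s : ℝ) : ℝ :=
  ∏ E ∈ T.filter (fun E => a ∈ E ∧ E ≠ F), (1 - J a E s)

/-- The cavity system of a hypergraph. -/
def IsHCav (T : Finset (Finset V)) (J : V → Finset V → ℝ → ℝ) : Prop :=
  ∀ a F, F ∈ T → a ∈ F → J a F 0 = 0 ∧ ∀ s : ℝ, 0 ≤ s →
    (0 ≤ J a F s ∧ J a F s ≤ 1 - Real.exp (-s)) ∧
    HasDerivWithinAt (J a F) (Real.exp (-s) * ∏ b ∈ F.erase a, hz T J b F s) (Set.Ici 0) s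

/-- Removal stays close to truncated removal. -/
def GrowthStmt : Prop := ∃ C : ℝ, ∀ (V : Type) [Fintype V] [DecidableEq V]
  (T : Finset (Finset V)) (U : Finset V), Linear3 T → (∀ F ∈ T, F ⊆ U) →
  ∀ a₀ t k₀ : ℝ, 0 < a₀ → 0 < t → 1 ≤ k₀ → ∀ c : ℝ,
    |semi (hstep T) t (fun H => |(H.card : ℝ) - c|) U -
        truncExp T (sched a₀ t k₀) (fun H => |(H.card : ℝ) - c|) U| ≤
      C * (k₀ + Real.log (1 + t / a₀) + 1) ^ 2 * Real.exp (-(k₀ * a₀ / (a₀ + t))) * hmom T U a₀ ∧
    |semi (hstep T) t (fun H => (H.card : ℝ)) U -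
        truncExp T (sched a₀ t k₀) (fun H => (H.card : ℝ)) U| ≤
      C * (k₀ + Real.log (1 + t / a₀) + 1) ^ 2 * Real.exp (-(k₀ * a₀ / (a₀ + t))) * hmom T U a₀

/-- Whether `a` is left by truncated removal only depends on its ball, and two points with disjoint
balls are independent. -/
def LocalityStmt : Prop :=
  (∀ (V V' : Type) [Fintype V] [DecidableEq V] [Fintype V'] [DecidableEq V']
    (T : Finset (Finset V)) (U : Finset V) (T' : Finset (Finset V')) (U' : Finset V'),
    Linear3 T → Linear3 T' → (∀ F ∈ T, F ⊆ U) → (∀ F ∈ T', F ⊆ U') →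
    ∀ (s : List (ℝ × ℕ)), (∀ p ∈ s, 0 ≤ p.1) →
    ∀ a ∈ U, ∀ φ : V → V', φ a ∈ U' →
      Set.InjOn φ ((hball T a (depth s + 1)).1 : Set V) →
      (hball T a (depth s + 1)).2.image (fun F => F.image φ) = (hball T' (φ a) (depth s + 1)).2 →
      truncExp T s (fun H => if a ∈ H then 1 else 0) U =
        truncExp T' s (fun H => if φ a ∈ H then 1 else 0) U') ∧
  (∀ (V : Type) [Fintype V] [DecidableEq V] (T : Finset (Finset V)) (U : Finset V),
    Linear3 T → (∀ F ∈ T, F ⊆ U) →
    ∀ (s : List (ℝ × ℕ)), (∀ p ∈ s, 0 ≤ p.1) → ∀ a ∈ U, ∀ b ∈ U,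
      Disjoint (hball T a (depth s + 1)).1 (hball T b (depth s + 1)).1 →
      truncExp T s (fun H => if a ∈ H ∧ b ∈ H then 1 else 0) U =
        truncExp T s (fun H => if a ∈ H then 1 else 0) U *
          truncExp T s (fun H => if b ∈ H then 1 else 0) U)

/-- Finite covers without short cycles. -/
def CoverStmt : Prop := ∀ (V : Type) [Fintype V] [DecidableEq V] (T : Finset (Finset V))
  (U : Finset V), Linear3 T → (∀ F ∈ T, F ⊆ U) → ∀ M : ℕ,
  ∃ (N q : ℕ) (π : Fin N → V) (T' : Finset (Finset (Fin N))) (U' : Finset (Fin N)),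
    0 < q ∧ Linear3 T' ∧ (∀ F ∈ T', F ⊆ U') ∧ (∀ a' ∈ U', π a' ∈ U) ∧
    (∀ a ∈ U, (U'.filter (fun a' => π a' = a)).card = q) ∧
    (∀ F' ∈ T', F'.image π ∈ T) ∧
    (∀ a' ∈ U', ∀ F ∈ T, π a' ∈ F → ∃! F', F' ∈ T' ∧ a' ∈ F' ∧ F'.image π = F) ∧
    ∀ a' ∈ U', htree T' M a'

/-- On a hypergraph without short cycles removal follows the cavity system. -/
def HierarchyStmt : Prop := ∀ (t ε : ℝ) (Dm : ℕ), 0 < t → 0 < ε → ∃ M : ℕ,
  ∀ (V : Type) [Fintype V] [DecidableEq V] (T : Finset (Finset V)) (U : Finset V),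
    Linear3 T → (∀ F ∈ T, F ⊆ U) → (∀ a ∈ U, hdeg T a ≤ Dm) → (∀ a ∈ U, htree T M a) →
    ∀ J, IsHCav T J → ∀ a ∈ U,
      |semi (hstep T) t (fun H => if a ∈ H then (1 : ℝ) else 0) U -
        ∏ F ∈ T.filter (fun F => a ∈ F), (1 - J a F t)| ≤ ε

end Vale.Agent.P046.Full
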